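import Vale.Agent.P159.TM.H60.FK

/-!
# P159, row B1: fatness of the clusters from a positively associated event

FK form on the plain finite graph (letters of `TM/H60/FK.lean`): `σ : Sys V E S`, `σ.wt om x` the
weight of the configuration `x` with the set `om` of open edges. Everything is in `ℝ≥0∞`.

`mf σ x om u z` is the mass at `z` of the cluster of `u`. `Fk σ le`: positive association of
`(x, ω⁺)`, `ω⁺ = plus σ x om` the open edges on which `d > 0`.
-/

set_option linter.unusedSectionVars false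
set_option linter.unusedDecidableInType false

namespace Vale.Agent.P159.TM.H576

open scoped ENNReal
open Finset H60

variable {V E S : Type*} [Fintype V] [DecidableEq V] [Fintype E] [DecidableEq E]

/-- The open edges on which `d` is positive. -/
def plus (σ : Sys V E S) (x : V → S) (om : Finset E) : Finset E :=
  om.filter (fun e => 0 < σ.d (x (σ.s e)) ∧ 0 < σ.d (x (σ.t e)))

/-- Integral of `F` (not normalised). -/
noncomputable def Ex (σ : Sys V E S) (F : (V → S) → Finset E → ℝ≥0∞) : ℝ≥0∞ :=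
  ∑' x : V → S, ∑ om : Finset E, ENNReal.ofReal (σ.wt om x) * F x om

open Classical in
/-- The mass of the cluster of `u` at `z`. -/
noncomputable def mf (σ : Sys V E S) (x : V → S) (om : Finset E) (u z : V) : ℕ :=
  if z ∈ clus σ.s σ.t om u then (σ.d (x z)).natAbs else 0

/-- Monotone function of `(x, om)`. -/
def MonoF (le : S → S → Prop) (F : (V → S) → Finset E → ℝ≥0∞) : Prop :=
  ∀ x x' om om', (∀ v, le (x v) (x' v)) → om ⊆ om' → F x om ≤ F x' om'

/-- Increasing event. -/
def MonoE (le : S → S → Prop) (O : (V → S) → Finset E → Prop) : Prop :=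
  ∀ x x' om om', (∀ v, le (x v) (x' v)) → om ⊆ om' → O x om → O x' om'

open Classical in
/-- The indicator of a proposition. -/
noncomputable def ind (p : Prop) : ℝ≥0∞ := if p then 1 else 0

/-- Positive association of `(x, ω⁺)`. -/
structure Fk (σ : Sys V E S) (le : S → S → Prop) : Prop where
  hd : ∀ x y, le x y → σ.d x ≤ σ.d y
  fkg : ∀ F G : (V → S) → Finset E → ℝ≥0∞, MonoF le F → MonoF le G →
    Ex σ (fun x om => F x (plus σ x om)) * Ex σ (fun x om => G x (plus σ x om)) ≤
      Ex σ (fun _ _ => 1) * Ex σ (fun x om => F x (plus σ x om) * G x (plus σ x om))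
  Z0 : Ex σ (fun _ _ => 1) ≠ 0
  Zt : Ex σ (fun _ _ => 1) ≠ ∞

section basic

variable {σ : Sys V E S}

theorem plus_subset (x : V → S) (om : Finset E) : plus σ x om ⊆ om := Finset.filter_subset _ _

theorem plus_pos {x : V → S} {om : Finset E} {e : E} (he : e ∈ plus σ x om) :
    0 < σ.d (x (σ.s e)) ∧ 0 < σ.d (x (σ.t e)) := (Finset.mem_filter.1 he).2

/-- Along open edges the sign of `d` is constant: the cluster of a positive site is a cluster of
the positive open edges. -/
theorem conn_plus {x : V → S} {om : Finset E} (hw : σ.wt om x ≠ 0) {u v : V}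
    (hu : 0 < σ.d (x u)) (h : Conn σ.s σ.t om u v) :
    Conn σ.s σ.t (plus σ x om) u v ∧ 0 < σ.d (x v) := by
  unfold Conn at h ⊢
  induction h with
  | refl => exact ⟨Relation.ReflTransGen.refl, hu⟩
  | @tail y z _ h ih =>
    obtain ⟨ih1, ih2⟩ := ih
    obtain ⟨e, he, h⟩ := h
    have h1 := σ.sign_edge hw he
    have key : 0 < σ.d (x (σ.s e)) ∧ 0 < σ.d (x (σ.t e)) := by
      rcases h with ⟨h2, h3⟩ | ⟨h2, h3⟩
      · rw [h2] at h1 ⊢
        exact ⟨ih2, (pos_iff_pos_of_mul_pos h1).1 ih2⟩
      · rw [h3] at h1 ⊢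
        exact ⟨(pos_iff_pos_of_mul_pos h1).2 ih2, ih2⟩
    refine ⟨ih1.tail ⟨e, Finset.mem_filter.2 ⟨he, key⟩, h⟩, ?_⟩
    rcases h with ⟨h2, h3⟩ | ⟨h2, h3⟩
    · rw [← h3]; exact key.2
    · rw [← h2]; exact key.1

theorem clus_plus {x : V → S} {om : Finset E} (hw : σ.wt om x ≠ 0) {u : V}
    (hu : 0 < σ.d (x u)) : clus σ.s σ.t (plus σ x om) u = clus σ.s σ.t om u := by
  ext v
  rw [mem_clus, mem_clus]
  exact ⟨fun h => h.mono (plus_subset _ _), fun h => (conn_plus hw hu h).1⟩

theorem mf_plus {x : V → S} {om : Finset E} (hw : σ.wt om x ≠ 0) {u : V}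
    (hu : 0 < σ.d (x u)) : mf σ x (plus σ x om) u = mf σ x om u := by
  funext z
  unfold mf
  rw [clus_plus hw hu]

theorem ind_mono {p q : Prop} (h : p → q) : ind p ≤ ind q := by
  unfold ind
  by_cases hp : p
  · simp [hp, h hp]
  · simp [hp]

theorem ind_congr {p q : Prop} (h : p ↔ q) : ind p = ind q := by
  rw [propext h]

theorem ind_le_one (p : Prop) : ind p ≤ 1 := by
  unfold ind; split_ifs <;> simp

theorem ind_true {p : Prop} (h : p) : ind p = 1 := if_pos h

theorem ind_false {p : Prop} (h : ¬ p) : ind p = 0 := if_neg h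

theorem ind_mul (p q : Prop) : ind p * ind q = ind (p ∧ q) := by
  unfold ind
  by_cases hp : p <;> by_cases hq : q <;> simp [hp, hq]

theorem Ex_mono {F G : (V → S) → Finset E → ℝ≥0∞}
    (h : ∀ x om, σ.wt om x ≠ 0 → F x om ≤ G x om) : Ex σ F ≤ Ex σ G := by
  unfold Ex
  refine ENNReal.tsum_le_tsum fun x => Finset.sum_le_sum fun om _ => ?_
  by_cases hW : σ.wt om x = 0
  · simp [hW]
  · exact mul_le_mul_right (h x om hW) _

theorem Ex_congr {F G : (V → S) → Finset E → ℝ≥0∞}
    (h : ∀ x om, σ.wt om x ≠ 0 → F x om = G x om) : Ex σ F = Ex σ G :=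
  le_antisymm (Ex_mono fun x om hW => (h x om hW).le) (Ex_mono fun x om hW => (h x om hW).ge)

theorem Ex_add (F G : (V → S) → Finset E → ℝ≥0∞) :
    Ex σ (fun x om => F x om + G x om) = Ex σ F + Ex σ G := by
  unfold Ex
  rw [← ENNReal.tsum_add]
  refine tsum_congr fun x => ?_
  rw [← Finset.sum_add_distrib]
  exact Finset.sum_congr rfl fun om _ => mul_add _ _ _

theorem Ex_mul (c : ℝ≥0∞) (F : (V → S) → Finset E → ℝ≥0∞) :
    Ex σ (fun x om => c * F x om) = c * Ex σ F := by
  unfold Ex
  rw [← ENNReal.tsum_mul_left]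
  refine tsum_congr fun x => ?_
  rw [Finset.mul_sum]
  exact Finset.sum_congr rfl fun om _ => mul_left_comm _ _ _

theorem Ex_sum {ι : Type*} (I : Finset ι) (F : ι → (V → S) → Finset E → ℝ≥0∞) :
    Ex σ (fun x om => ∑ i ∈ I, F i x om) = ∑ i ∈ I, Ex σ (F i) := by
  classical
  induction I using Finset.induction_on with
  | empty => simp [Ex]
  | insert i I hi ih =>
    rw [Finset.sum_insert hi, ← ih, ← Ex_add]
    exact Ex_congr fun x om _ => Finset.sum_insert hi

/-- Invariance under the global swap. -/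
theorem Ex_swap (F : (V → S) → Finset E → ℝ≥0∞) :
    Ex σ (fun x om => F (fun v => σ.sw (x v)) om) = Ex σ F := by
  unfold Ex
  let e : (V → S) ≃ (V → S) :=
    { toFun := fun x v => σ.sw (x v)
      invFun := fun x v => σ.sw (x v)
      left_inv := fun x => by funext v; simp [σ.sw_sw]
      right_inv := fun x => by funext v; simp [σ.sw_sw] }
  rw [← e.tsum_eq (fun x => ∑ om : Finset E, ENNReal.ofReal (σ.wt om x) * F x om)]
  refine tsum_congr fun x => Finset.sum_congr rfl fun om _ => ?_
  have h1 : σ.wt om (fun v => σ.sw (x v)) = σ.wt om x := by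
    have h2 := σ.wt_flip (om := om) (A := Finset.univ) (by
      rw [Finset.disjoint_left]
      intro e _ he
      rw [mem_bdE] at he
      exact he (by simp)) x
    have h3 : σ.flip Finset.univ x = fun v => σ.sw (x v) := by
      funext v
      exact σ.flip_mem (Finset.mem_univ v)
    rwa [h3] at h2
  show ENNReal.ofReal (σ.wt om x) * F (fun v => σ.sw (x v)) om =
    ENNReal.ofReal (σ.wt om (fun v => σ.sw (x v))) * F (fun v => σ.sw (x v)) om
  rw [h1]

/-- A swap invariant integrand which vanishes where `d_u = 0`: half of the integral comes from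
`d_u > 0`. -/
theorem Ex_half {F : (V → S) → Finset E → ℝ≥0∞} (u : V)
    (h0 : ∀ x om, σ.d (x u) = 0 → F x om = 0)
    (hsw : ∀ x om, F (fun v => σ.sw (x v)) om = F x om) :
    Ex σ F = 2 * Ex σ (fun x om => ind (0 < σ.d (x u)) * F x om) := by
  have h1 : Ex σ F = Ex σ (fun x om => ind (0 < σ.d (x u)) * F x om) +
      Ex σ (fun x om => ind (σ.d (x u) < 0) * F x om) := by
    rw [← Ex_add]
    refine Ex_congr fun x om _ => ?_
    rcases lt_trichotomy (σ.d (x u)) 0 with h | h | h
    · rw [ind_false (not_lt.2 h.le), ind_true h]; simp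
    · rw [h0 x om h]; simp
    · rw [ind_true h, ind_false (not_lt.2 h.le)]; simp
  have h2 : Ex σ (fun x om => ind (σ.d (x u) < 0) * F x om) =
      Ex σ (fun x om => ind (0 < σ.d (x u)) * F x om) := by
    rw [← Ex_swap (fun x om => ind (0 < σ.d (x u)) * F x om)]
    refine Ex_congr fun x om _ => ?_
    simp only [σ.d_sw, hsw]
    congr 1
    exact ind_congr (by constructor <;> intro h <;> linarith)
  rw [h1, h2, two_mul]

theorem mf_swap (x : V → S) (om : Finset E) (u : V) :
    mf σ (fun v => σ.sw (x v)) om u = mf σ x om u := by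
  funext z
  unfold mf
  rw [σ.d_sw, Int.natAbs_neg]

theorem mf_zero {x : V → S} {om : Finset E} {u : V} (h : σ.d (x u) = 0) : mf σ x om u u = 0 := by
  unfold mf
  rw [h]
  simp

theorem mf_self {x : V → S} {om : Finset E} {u : V} : mf σ x om u u = (σ.d (x u)).natAbs := by
  unfold mf
  rw [if_pos (self_mem_clus u)]

end basic

/-! ### the FKG step -/

section fkg

variable {σ : Sys V E S} {le : S → S → Prop}

/-- the positive version of the mass, an increasing function of `(x, om)` -/
noncomputable def mp (σ : Sys V E S) (x : V → S) (om : Finset E) (u z : V) : ℕ :=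
  haveI := Classical.dec (z ∈ clus σ.s σ.t (plus σ x om) u ∧ 0 < σ.d (x u) ∧ 0 < σ.d (x z))
  if z ∈ clus σ.s σ.t (plus σ x om) u ∧ 0 < σ.d (x u) ∧ 0 < σ.d (x z)
    then (σ.d (x z)).toNat else 0

theorem plus_mono (M : Fk σ le) {x x' : V → S} {om om' : Finset E}
    (h : ∀ v, le (x v) (x' v)) (ho : om ⊆ om') : plus σ x om ⊆ plus σ x' om' := by
  intro e he
  unfold plus at he ⊢
  rw [Finset.mem_filter] at he ⊢
  exact ⟨ho he.1, lt_of_lt_of_le he.2.1 (M.hd _ _ (h _)), lt_of_lt_of_le he.2.2 (M.hd _ _ (h _))⟩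

theorem plus_plus (x : V → S) (om : Finset E) : plus σ x (plus σ x om) = plus σ x om := by
  unfold plus
  rw [Finset.filter_filter]
  simp

theorem mp_mono (M : Fk σ le) {x x' : V → S} {om om' : Finset E}
    (h : ∀ v, le (x v) (x' v)) (ho : om ⊆ om') (u : V) : mp σ x om u ≤ mp σ x' om' u := by
  intro z
  unfold mp
  split_ifs with h1 h2 h2
  · have h3 := M.hd _ _ (h z)
    exact Int.toNat_le_toNat h3
  · exfalso
    apply h2
    refine ⟨?_, lt_of_lt_of_le h1.2.1 (M.hd _ _ (h u)), lt_of_lt_of_le h1.2.2 (M.hd _ _ (h z))⟩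
    have := h1.1
    rw [mem_clus] at this ⊢
    exact this.mono (plus_mono M h ho)
  · exact Nat.zero_le _
  · exact le_rfl

theorem mp_eq {x : V → S} {om : Finset E} (hw : σ.wt om x ≠ 0) {u : V}
    (hu : 0 < σ.d (x u)) : mp σ x (plus σ x om) u = mf σ x om u := by
  funext z
  unfold mp mf
  rw [plus_plus, clus_plus hw hu]
  by_cases hz : z ∈ clus σ.s σ.t om u
  · have h1 := (conn_plus hw hu (mem_clus.1 hz)).2
    rw [if_pos ⟨hz, hu, h1⟩, if_pos hz]
    omega
  · rw [if_neg (fun h => hz h.1), if_neg hz]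

/-- **Fatness.** -/
theorem fat (M : Fk σ le) {Γ : (V → ℕ) → ℝ≥0∞} (hΓ : Monotone Γ) {u : V}
    (hΓ0 : ∀ m, m u = 0 → Γ m = 0) {O : (V → S) → Finset E → Prop} (hO : MonoE le O)
    {p μ : ℝ≥0∞}
    (hp : p * Ex σ (fun _ _ => 1) ≤ Ex σ (fun x om => ind (O x (plus σ x om))))
    {B : Finset V}
    (hOf : ∀ x T, (∀ e ∈ T, 0 < σ.d (x (σ.s e)) ∧ 0 < σ.d (x (σ.t e))) → O x T →
      0 < σ.d (x u) → Γ (mf σ x T u) ≠ 0 → μ ≤ ∑ z ∈ B, (mf σ x T u z : ℝ≥0∞)) :
    p * μ * Ex σ (fun x om => Γ (mf σ x om u)) ≤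
      Ex σ (fun x om => Γ (mf σ x om u) * ∑ z ∈ B, (mf σ x om u z : ℝ≥0∞)) := by
  set F : (V → S) → Finset E → ℝ≥0∞ := fun x T => Γ (mp σ x T u) with hF
  set G : (V → S) → Finset E → ℝ≥0∞ := fun x T => ind (O x T) with hG
  have hFm : MonoF le F := fun x x' T T' h hT => hΓ (mp_mono M h hT u)
  have hGm : MonoF le G := fun x x' T T' h hT => ind_mono (hO x x' T T' h hT)
  have key := M.fkg F G hFm hGm
  set Z := Ex σ (fun _ _ => 1) with hZ
  have h1 : Z * (p * Ex σ (fun x om => F x (plus σ x om))) ≤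
      Z * Ex σ (fun x om => F x (plus σ x om) * G x (plus σ x om)) := by
    calc Z * (p * Ex σ (fun x om => F x (plus σ x om)))
        = Ex σ (fun x om => F x (plus σ x om)) * (p * Z) := by ring
      _ ≤ Ex σ (fun x om => F x (plus σ x om)) * Ex σ (fun x om => G x (plus σ x om)) :=
          mul_le_mul_right hp _
      _ ≤ _ := key
  have h2 : p * Ex σ (fun x om => F x (plus σ x om)) ≤
      Ex σ (fun x om => F x (plus σ x om) * G x (plus σ x om)) :=
    (ENNReal.mul_le_mul_iff_right M.Z0 M.Zt).1 h1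
  -- both sides are twice the positive part
  have e1 : Ex σ (fun x om => Γ (mf σ x om u)) = 2 * Ex σ (fun x om => F x (plus σ x om)) := by
    rw [Ex_half (F := fun x om => Γ (mf σ x om u)) u
      (fun x om h => hΓ0 _ (mf_zero h)) (fun x om => by simp only [mf_swap])]
    congr 1
    refine Ex_congr fun x om hw => ?_
    by_cases hu : 0 < σ.d (x u)
    · rw [ind_true hu, one_mul]
      simp only [hF]
      rw [mp_eq hw hu]
    · rw [ind_false hu, zero_mul]
      simp only [hF]
      refine (hΓ0 _ ?_).symm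
      unfold mp
      rw [if_neg (fun h => hu h.2.1)]
  have e2 : Ex σ (fun x om => Γ (mf σ x om u) * ∑ z ∈ B, (mf σ x om u z : ℝ≥0∞)) =
      2 * Ex σ (fun x om => ind (0 < σ.d (x u)) *
        (Γ (mf σ x om u) * ∑ z ∈ B, (mf σ x om u z : ℝ≥0∞))) := by
    refine Ex_half u (fun x om h => ?_) (fun x om => by simp only [mf_swap])
    rw [hΓ0 _ (mf_zero h), zero_mul]
  rw [e1, e2]
  calc p * μ * (2 * Ex σ (fun x om => F x (plus σ x om)))
      = 2 * (μ * (p * Ex σ (fun x om => F x (plus σ x om)))) := by ring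
    _ ≤ 2 * (μ * Ex σ (fun x om => F x (plus σ x om) * G x (plus σ x om))) :=
        mul_le_mul_right (mul_le_mul_right h2 _) _
    _ = 2 * Ex σ (fun x om => μ * (F x (plus σ x om) * G x (plus σ x om))) := by
        rw [Ex_mul]
    _ ≤ _ := by
        refine mul_le_mul_right (Ex_mono fun x om hw => ?_) _
        simp only [hF, hG]
        by_cases hu : 0 < σ.d (x u)
        swap
        · have h0 : Γ (mp σ x (plus σ x om) u) = 0 := by
            refine hΓ0 _ ?_
            unfold mp
            rw [if_neg (fun h => hu h.2.1)]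
          rw [h0]; simp
        rw [ind_true hu, one_mul, mp_eq hw hu]
        by_cases h0 : Γ (mf σ x om u) = 0
        · rw [h0]; simp
        by_cases hO' : O x (plus σ x om)
        swap
        · rw [ind_false hO']; simp
        rw [ind_true hO', mul_one, mul_comm]
        have h3 := hOf x (plus σ x om) (fun e he => plus_pos he) hO' hu (by
          rw [mf_plus hw hu]; exact h0)
        rw [mf_plus hw hu] at h3
        exact mul_le_mul_right h3 _

end fkg

end Vale.Agent.P159.TM.H576
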