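import Vale.Agent.P159.TM.H576.Fat
import Vale.Agent.P159.TM.H426.Fkg

/-!
# P159, row B1: positive association in `ℝ≥0∞` for the two systems of `TM/H60/FK.lean`

`Fk (two ...) le2` and `Fk (one ...) (· ≤ ·)` from `fkg_two`, `fkg_one` (`TM/H426/Fkg.lean`): the
integrands are truncated.
-/

set_option linter.unusedSectionVars false
set_option linter.unusedDecidableInType false

namespace Vale.Agent.P159.TM.H576

open scoped ENNReal
open Finset H60

variable {V E S : Type*} [Fintype V] [DecidableEq V] [Fintype E] [DecidableEq E]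

/-- monotone convergence for `Ex` -/
theorem Ex_iSup (σ : Sys V E S) (F : (V → S) → Finset E → ℝ≥0∞) :
    Ex σ F = ⨆ n : ℕ, Ex σ (fun x om => min (F x om) n) := by
  apply le_antisymm
  · unfold Ex
    rw [ENNReal.tsum_eq_iSup_sum]
    refine iSup_le fun s => ?_
    have h1 : ∀ x om, ENNReal.ofReal (σ.wt om x) * F x om =
        ⨆ n : ℕ, ENNReal.ofReal (σ.wt om x) * min (F x om) n := by
      intro x om
      rw [← ENNReal.mul_iSup]
      congr 1
      have h2 : (⨆ n : ℕ, min (F x om) (n : ℝ≥0∞)) = min (F x om) (⨆ n : ℕ, (n : ℝ≥0∞)) := by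
        rw [inf_iSup_eq]
      rw [h2, ENNReal.iSup_natCast, min_eq_left le_top]
    have hmono : ∀ x om, Monotone fun n : ℕ => ENNReal.ofReal (σ.wt om x) * min (F x om) n := by
      intro x om n m hnm
      exact mul_le_mul_right (min_le_min le_rfl (by exact_mod_cast hnm)) _
    have h3 : ∑ x ∈ s, ∑ om : Finset E, ENNReal.ofReal (σ.wt om x) * F x om =
        ⨆ n : ℕ, ∑ x ∈ s, ∑ om : Finset E, ENNReal.ofReal (σ.wt om x) * min (F x om) n := by
      have h4 : ∀ x ∈ s, ∑ om : Finset E, ENNReal.ofReal (σ.wt om x) * F x om =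
          ⨆ n : ℕ, ∑ om : Finset E, ENNReal.ofReal (σ.wt om x) * min (F x om) n := by
        intro x _
        rw [Finset.sum_congr rfl fun om _ => h1 x om]
        exact ENNReal.finsetSum_iSup_of_monotone fun om => hmono x om
      rw [Finset.sum_congr rfl h4]
      refine ENNReal.finsetSum_iSup_of_monotone fun x n m hnm => ?_
      exact Finset.sum_le_sum fun om _ => hmono x om hnm
    rw [h3]
    exact iSup_mono fun n => ENNReal.sum_le_tsum s
  · exact iSup_le fun n => Ex_mono fun x om _ => min_le_left _ _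

/-- It is enough to have the inequality for bounded integrands. -/
theorem Fk.of_bdd {σ : Sys V E S} {le : S → S → Prop} (hd : ∀ x y, le x y → σ.d x ≤ σ.d y)
    (Z0 : Ex σ (fun _ _ => 1) ≠ 0) (Zt : Ex σ (fun _ _ => 1) ≠ ∞)
    (h : ∀ (n : ℕ) (F G : (V → S) → Finset E → ℝ≥0∞), MonoF le F → MonoF le G →
      (∀ x om, F x om ≤ n) → (∀ x om, G x om ≤ n) →
      Ex σ (fun x om => F x (plus σ x om)) * Ex σ (fun x om => G x (plus σ x om)) ≤
        Ex σ (fun _ _ => 1) * Ex σ (fun x om => F x (plus σ x om) * G x (plus σ x om))) :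
    Fk σ le where
  hd := hd
  Z0 := Z0
  Zt := Zt
  fkg := by
    intro F G hF hG
    rw [Ex_iSup σ (fun x om => F x (plus σ x om)), Ex_iSup σ (fun x om => G x (plus σ x om)),
      ENNReal.iSup_mul]
    refine iSup_le fun n => ?_
    rw [ENNReal.mul_iSup]
    refine iSup_le fun m => ?_
    have h1 := h (max n m) (fun x om => min (F x om) n) (fun x om => min (G x om) m)
      (fun x x' om om' hx ho => min_le_min (hF x x' om om' hx ho) le_rfl)
      (fun x x' om om' hx ho => min_le_min (hG x x' om om' hx ho) le_rfl)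
      (fun x om => (min_le_right _ _).trans (by exact_mod_cast le_max_left n m))
      (fun x om => (min_le_right _ _).trans (by exact_mod_cast le_max_right n m))
    refine h1.trans (mul_le_mul_right (Ex_mono fun x om _ => ?_) _)
    exact mul_le_mul' (min_le_left _ _) (min_le_left _ _)

/-- `Ex` of a bounded integrand as a real number. -/
theorem Ex_real (σ : Sys V E S) (hs : Summable fun x => σ.tot x) {f : (V → S) → Finset E → ℝ}
    (h0 : ∀ x om, 0 ≤ f x om) {K : ℝ} (hK : ∀ x om, f x om ≤ K) :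
    (Summable fun x => ∑ om : Finset E, σ.wt om x * f x om) ∧
    Ex σ (fun x om => ENNReal.ofReal (f x om)) =
      ENNReal.ofReal (∑' x, ∑ om : Finset E, σ.wt om x * f x om) := by
  have hnn : ∀ x, 0 ≤ ∑ om : Finset E, σ.wt om x * f x om := fun x =>
    Finset.sum_nonneg fun om _ => mul_nonneg (σ.wt_nonneg om x) (h0 x om)
  have hS : Summable fun x => ∑ om : Finset E, σ.wt om x * f x om := by
    refine Summable.of_nonneg_of_le hnn (fun x => ?_) (hs.mul_right K)
    rw [← σ.sum_wt, Finset.sum_mul]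
    exact Finset.sum_le_sum fun om _ => mul_le_mul_of_nonneg_left (hK x om) (σ.wt_nonneg om x)
  refine ⟨hS, ?_⟩
  rw [ENNReal.ofReal_tsum_of_nonneg hnn hS]
  unfold Ex
  refine tsum_congr fun x => ?_
  rw [ENNReal.ofReal_sum_of_nonneg fun om _ => mul_nonneg (σ.wt_nonneg om x) (h0 x om)]
  exact Finset.sum_congr rfl fun om _ => by rw [ENNReal.ofReal_mul (σ.wt_nonneg om x)]

theorem Ex_one_real (σ : Sys V E S) (hs : Summable fun x => σ.tot x) :
    Ex σ (fun _ _ => 1) = ENNReal.ofReal (∑' x, σ.tot x) := by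
  have h := (Ex_real σ hs (f := fun _ _ => 1) (fun _ _ => zero_le_one) (K := 1)
    (fun _ _ => le_rfl)).2
  simp only [ENNReal.ofReal_one, mul_one, σ.sum_wt] at h
  exact h

/-- From the real inequality for bounded increasing functions. -/
theorem Fk.of_real {σ : Sys V E S} {le : S → S → Prop} (hd : ∀ x y, le x y → σ.d x ≤ σ.d y)
    (hs : Summable fun x => σ.tot x) (hpos : 0 < ∑' x, σ.tot x)
    (h : ∀ (K : ℝ) (F G : (V → S) → Finset E → ℝ), (∀ x om, 0 ≤ F x om) → (∀ x om, 0 ≤ G x om) →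
      (∀ x om, F x om ≤ K) → (∀ x om, G x om ≤ K) →
      (∀ x x' om om', (∀ v, le (x v) (x' v)) → om ⊆ om' → F x om ≤ F x' om') →
      (∀ x x' om om', (∀ v, le (x v) (x' v)) → om ⊆ om' → G x om ≤ G x' om') →
      (∑' x, ∑ om : Finset E, σ.wt om x * F x (plus σ x om)) *
          (∑' x, ∑ om : Finset E, σ.wt om x * G x (plus σ x om)) ≤
        (∑' x, σ.tot x) *
          ∑' x, ∑ om : Finset E, σ.wt om x * (F x (plus σ x om) * G x (plus σ x om))) :
    Fk σ le := by
  have hZ := Ex_one_real σ hs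
  refine Fk.of_bdd hd (by rw [hZ]; simpa using hpos) (by rw [hZ]; exact ENNReal.ofReal_ne_top) ?_
  intro n F G hF hG hFn hGn
  have tF : ∀ x om, F x om ≠ ∞ := fun x om => ne_top_of_le_ne_top (ENNReal.natCast_ne_top n)
    (hFn x om)
  have tG : ∀ x om, G x om ≠ ∞ := fun x om => ne_top_of_le_ne_top (ENNReal.natCast_ne_top n)
    (hGn x om)
  have key := h n (fun x om => (F x om).toReal) (fun x om => (G x om).toReal)
    (fun _ _ => ENNReal.toReal_nonneg) (fun _ _ => ENNReal.toReal_nonneg)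
    (fun x om => by
      have := ENNReal.toReal_mono (ENNReal.natCast_ne_top n) (hFn x om)
      simpa using this)
    (fun x om => by
      have := ENNReal.toReal_mono (ENNReal.natCast_ne_top n) (hGn x om)
      simpa using this)
    (fun x x' om om' hx ho => ENNReal.toReal_mono (tF _ _) (hF x x' om om' hx ho))
    (fun x x' om om' hx ho => ENNReal.toReal_mono (tG _ _) (hG x x' om om' hx ho))
  have bF : ∀ x om, (F x om).toReal ≤ n := fun x om => by
    have := ENNReal.toReal_mono (ENNReal.natCast_ne_top n) (hFn x om)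
    simpa using this
  have bG : ∀ x om, (G x om).toReal ≤ n := fun x om => by
    have := ENNReal.toReal_mono (ENNReal.natCast_ne_top n) (hGn x om)
    simpa using this
  have e1 := (Ex_real σ hs (f := fun x om => (F x (plus σ x om)).toReal)
    (fun _ _ => ENNReal.toReal_nonneg) (K := n) (fun x om => bF _ _)).2
  have e2 := (Ex_real σ hs (f := fun x om => (G x (plus σ x om)).toReal)
    (fun _ _ => ENNReal.toReal_nonneg) (K := n) (fun x om => bG _ _)).2
  have e3 := (Ex_real σ hs
    (f := fun x om => (F x (plus σ x om)).toReal * (G x (plus σ x om)).toReal)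
    (fun _ _ => mul_nonneg ENNReal.toReal_nonneg ENNReal.toReal_nonneg) (K := n * n)
    (fun x om => mul_le_mul (bF _ _) (bG _ _) ENNReal.toReal_nonneg (Nat.cast_nonneg n))).2
  simp only [ENNReal.ofReal_toReal (tF _ _)] at e1
  simp only [ENNReal.ofReal_toReal (tG _ _)] at e2
  have e3' : Ex σ (fun x om => F x (plus σ x om) * G x (plus σ x om)) =
      ENNReal.ofReal (∑' x, ∑ om : Finset E, σ.wt om x *
        ((F x (plus σ x om)).toReal * (G x (plus σ x om)).toReal)) := by
    rw [← e3]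
    refine Ex_congr fun x om _ => ?_
    rw [ENNReal.ofReal_mul ENNReal.toReal_nonneg, ENNReal.ofReal_toReal (tF _ _),
      ENNReal.ofReal_toReal (tG _ _)]
  rw [e1, e2, e3', hZ, ← ENNReal.ofReal_mul (tsum_nonneg fun x => Finset.sum_nonneg fun om _ =>
    mul_nonneg (σ.wt_nonneg om x) ENNReal.toReal_nonneg), ← ENNReal.ofReal_mul hpos.le]
  exact ENNReal.ofReal_le_ofReal key

/-! ### two copies -/

/-- The order on the states of two copies: increasing in `h` and in `-h'`. -/
def le2 (p q : ℤ × ℤ) : Prop := p.1 ≤ q.1 ∧ q.2 ≤ p.2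

/-- forget the order -/
def prE (V : Type*) : (V → ℤ × ℤᵒᵈ) ≃ (V → ℤ × ℤ) where
  toFun H v := H426.pr (H v)
  invFun x v := ((x v).1, OrderDual.toDual (x v).2)
  left_inv H := by funext v; rfl
  right_inv x := by funext v; rfl

theorem op_two (w : ℤ → ℝ) (p q : ℤ × ℤ) :
    H426.op w p q = max (w (q.1 - p.1) * w (q.2 - p.2) - w (q.1 - p.2) * w (q.2 - p.1)) 0 := by
  unfold H426.op H426.fu H426.sw
  rw [mul_comm (w (q.2 - p.1))]

theorem cl_two (w : ℤ → ℝ) (p q : ℤ × ℤ) :
    H426.cl w p q = min (w (q.1 - p.1) * w (q.2 - p.2)) (w (q.1 - p.2) * w (q.2 - p.1)) := by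
  unfold H426.cl H426.fu H426.sw
  rw [mul_comm (w (q.2 - p.1))]

theorem two_Fk {s t : E → V} {w : E → ℤ → ℝ} (hw : ∀ e n, 0 < w e n)
    (hL : ∀ e, T1.H897.LogC (w e)) {a : V → ℤ → ℝ} (ha : ∀ v n, 0 ≤ a v n)
    (hs : Summable fun x => (two s t w (fun e n => (hw e n).le) hL a ha).tot x)
    (hpos : 0 < ∑' x, (two s t w (fun e n => (hw e n).le) hL a ha).tot x) :
    Fk (two s t w (fun e n => (hw e n).le) hL a ha) le2 := by
  set σ := two s t w (fun e n => (hw e n).le) hL a ha with hσ
  refine Fk.of_real (fun x y h => by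
    show x.1 - x.2 ≤ y.1 - y.2
    have := h.1; have := h.2; omega) hs hpos ?_
  intro K F G F0 G0 FK GK hF hG
  have hwt : ∀ (H : V → ℤ × ℤᵒᵈ) (T : Finset E),
      H426.W2 s t w a a H T = σ.wt T (prE V H) := by
    intro H T
    unfold H426.W2 Sys.wt
    congr 1
    · congr 1
      · exact Finset.prod_congr rfl fun e _ => op_two _ _ _
      · exact Finset.prod_congr rfl fun e _ => cl_two _ _ _
  have hpl : ∀ (H : V → ℤ × ℤᵒᵈ) (T : Finset E),
      T ∩ H426.posE s t H = plus σ (prE V H) T := by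
    intro H T
    ext e
    unfold H426.posE plus
    rw [Finset.mem_inter, Finset.mem_filter, Finset.mem_filter]
    have h1 : ∀ v, (0 < σ.d (prE V H v)) ↔ (H426.pr (H v)).2 < (H426.pr (H v)).1 := by
      intro v
      show 0 < (prE V H v).1 - (prE V H v).2 ↔ _
      rw [sub_pos]
      rfl
    constructor
    · rintro ⟨h2, -, h3, h4⟩
      exact ⟨h2, (h1 _).2 h3, (h1 _).2 h4⟩
    · rintro ⟨h2, h3, h4⟩
      exact ⟨h2, Finset.mem_univ _, (h1 _).1 h3, (h1 _).1 h4⟩
  have hW2h : ∀ H : V → ℤ × ℤᵒᵈ, H426.W2h s t w a a H = σ.tot (prE V H) := by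
    intro H
    rfl
  have sm : ∀ (f : (V → ℤ × ℤ) → Finset E → ℝ) (K : ℝ), (∀ x om, 0 ≤ f x om) →
      (∀ x om, f x om ≤ K) → Summable fun H : V → ℤ × ℤᵒᵈ =>
        ∑ T, H426.W2 s t w a a H T * f (prE V H) (T ∩ H426.posE s t H) := by
    intro f K h0 hK
    have h1 := (Ex_real σ hs (f := fun x om => f x (plus σ x om)) (fun x om => h0 _ _)
      (fun x om => hK _ _)).1
    have h2 := (prE V).summable_iff.2 h1
    refine h2.congr fun H => ?_
    refine Finset.sum_congr rfl fun T _ => ?_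
    rw [hwt, hpl]
  have key := H426.fkg_two (s := s) (t := t) hw hL (a := a) (a' := a) ha ha
    (F := fun H T => F (prE V H) T) (G := fun H T => G (prE V H) T)
    (fun H T => F0 _ _) (fun H T => G0 _ _)
    (fun H H' T T' hH hT => hF _ _ _ _ (fun v => hH v) hT)
    (fun H H' T T' hH hT => hG _ _ _ _ (fun v => hH v) hT)
    (by
      have := (prE V).summable_iff.2 hs
      exact this)
    (sm F K F0 FK) (sm G K G0 GK)
    (sm (fun x om => F x om * G x om) (K * K) (fun x om => mul_nonneg (F0 _ _) (G0 _ _))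
      (fun x om => mul_le_mul (FK _ _) (GK _ _) (G0 _ _) ((F0 x om).trans (FK x om))))
  have tr : ∀ f : (V → ℤ × ℤ) → Finset E → ℝ,
      ∑' H : V → ℤ × ℤᵒᵈ, ∑ T, H426.W2 s t w a a H T * f (prE V H) (T ∩ H426.posE s t H) =
      ∑' x, ∑ om : Finset E, σ.wt om x * f x (plus σ x om) := by
    intro f
    rw [← (prE V).tsum_eq fun x => ∑ om : Finset E, σ.wt om x * f x (plus σ x om)]
    refine tsum_congr fun H => Finset.sum_congr rfl fun T _ => ?_
    rw [hwt, hpl]
  have tr0 : ∑' H : V → ℤ × ℤᵒᵈ, H426.W2h s t w a a H = ∑' x, σ.tot x := by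
    rw [← (prE V).tsum_eq fun x => σ.tot x]
    exact tsum_congr fun H => hW2h H
  rw [tr F, tr G, tr0, tr (fun x om => F x om * G x om)] at key
  exact key

/-! ### one copy -/

theorem one_Fk {s t : E → V} {w : E → ℤ → ℝ} (hw : ∀ e n, 0 < w e n)
    (hev : ∀ e n, w e (-n) = w e n) (hL : ∀ e, T1.H897.LogC (w e)) {a : V → ℤ → ℝ}
    (ha : ∀ v n, 0 ≤ a v n) (hae : ∀ v n, a v (-n) = a v n)
    (hs : Summable fun x => (one s t w (fun e n => (hw e n).le) hev hL a ha hae).tot x)
    (hpos : 0 < ∑' x, (one s t w (fun e n => (hw e n).le) hev hL a ha hae).tot x) :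
    Fk (one s t w (fun e n => (hw e n).le) hev hL a ha hae) (· ≤ ·) := by
  set σ := one s t w (fun e n => (hw e n).le) hev hL a ha hae with hσ
  refine Fk.of_real (fun x y h => h) hs hpos ?_
  intro K F G F0 G0 FK GK hF hG
  have e1 : ∀ (e : E) (x y : ℤ), w e (y - -x) = w e (y + x) := fun e x y => by
    rw [sub_neg_eq_add]
  have hwt : ∀ (x : V → ℤ) (T : Finset E), H426.W1 s t w a x T = σ.wt T x := by
    intro x T
    unfold H426.W1 Sys.wt
    congr 1
    congr 1
    · refine Finset.prod_congr rfl fun e _ => ?_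
      show max _ _ = max (w e (x (t e) - x (s e)) - w e (x (t e) - -x (s e))) 0
      rw [e1]
    · refine Finset.prod_congr rfl fun e _ => ?_
      show min _ _ = min (w e (x (t e) - x (s e))) (w e (x (t e) - -x (s e)))
      rw [e1]
  have hpl : ∀ (x : V → ℤ) (T : Finset E), T ∩ H426.posE1 s t x = plus σ x T := by
    intro x T
    ext e
    unfold H426.posE1 plus
    rw [Finset.mem_inter, Finset.mem_filter, Finset.mem_filter]
    constructor
    · rintro ⟨h2, -, h3, h4⟩
      exact ⟨h2, h3, h4⟩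
    · rintro ⟨h2, h3, h4⟩
      exact ⟨h2, Finset.mem_univ _, h3, h4⟩
  have sm : ∀ (f : (V → ℤ) → Finset E → ℝ) (K : ℝ), (∀ x om, 0 ≤ f x om) →
      (∀ x om, f x om ≤ K) → Summable fun x : V → ℤ =>
        ∑ T, H426.W1 s t w a x T * f x (T ∩ H426.posE1 s t x) := by
    intro f K h0 hK
    have h1 := (Ex_real σ hs (f := fun x om => f x (plus σ x om)) (fun x om => h0 _ _)
      (fun x om => hK _ _)).1
    refine h1.congr fun x => ?_
    refine Finset.sum_congr rfl fun T _ => ?_
    rw [hwt, hpl]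
  have key := H426.fkg_one (s := s) (t := t) hw hev hL (a := a) ha (F := F) (G := G) F0 G0
    (fun x x' T T' hx hT => hF x x' T T' (fun v => hx v) hT)
    (fun x x' T T' hx hT => hG x x' T T' (fun v => hx v) hT)
    hs (sm F K F0 FK) (sm G K G0 GK)
    (sm (fun x om => F x om * G x om) (K * K) (fun x om => mul_nonneg (F0 _ _) (G0 _ _))
      (fun x om => mul_le_mul (FK _ _) (GK _ _) (G0 _ _) ((F0 x om).trans (FK x om))))
  have tr : ∀ f : (V → ℤ) → Finset E → ℝ,
      ∑' x : V → ℤ, ∑ T, H426.W1 s t w a x T * f x (T ∩ H426.posE1 s t x) =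
      ∑' x, ∑ om : Finset E, σ.wt om x * f x (plus σ x om) := by
    intro f
    refine tsum_congr fun x => Finset.sum_congr rfl fun T _ => ?_
    rw [hwt, hpl]
  rw [tr F, tr G, tr (fun x om => F x om * G x om)] at key
  exact key

end Vale.Agent.P159.TM.H576
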