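import Vale.Agent.P159.TM.H576.Close

/-!
# P159, row B1: the first-moment (influence) version

`Wd A A'` is the integral of `∑_C X_C(A)² 1{C meets A'}`. `infl`: if `A` lies in `Fr i` then
`p μ E ∑_{z ∈ A} |d_z| 1{z ↔ b i}` is at most `∑_j (Wd A (b' j) + Wd (b' j) A)` for every cover
`b' j` of `B i`.
-/

set_option linter.unusedSectionVars false
set_option linter.unusedDecidableInType false

namespace Vale.Agent.P159.TM.H576

open scoped ENNReal
open Finset H60

variable {V E S : Type*} [Fintype V] [DecidableEq V] [Fintype E] [DecidableEq E]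
variable {σ : Sys V E S} {le : S → S → Prop}

theorem clus_eq_of_mem {om : Finset E} {u v : V} (h : v ∈ clus σ.s σ.t om u) :
    clus σ.s σ.t om v = clus σ.s σ.t om u := by
  rw [mem_clus] at h
  ext z
  rw [mem_clus, mem_clus]
  exact ⟨fun h1 => h.trans h1, fun h1 => h.symm.trans h1⟩

/-- `|d_z|` as an element of `ℝ≥0∞` -/
noncomputable def ad (σ : Sys V E S) (x : V → S) (z : V) : ℝ≥0∞ := ((σ.d (x z)).natAbs : ℝ≥0∞)

/-- mass of the set `C` in `A` -/
noncomputable def XC (σ : Sys V E S) (x : V → S) (C A : Finset V) : ℝ≥0∞ :=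
  ∑ z ∈ A with z ∈ C, ad σ x z

theorem mf_ad {x : V → S} {om : Finset E} {u z : V} :
    (mf σ x om u z : ℝ≥0∞) = if z ∈ clus σ.s σ.t om u then ad σ x z else 0 := by
  unfold mf ad
  split_ifs <;> simp

theorem sum_mf {x : V → S} {om : Finset E} {u : V} (A : Finset V) :
    ∑ z ∈ A, (mf σ x om u z : ℝ≥0∞) = XC σ x (clus σ.s σ.t om u) A := by
  unfold XC
  rw [Finset.sum_filter]
  exact Finset.sum_congr rfl fun z _ => mf_ad

/-- sums over sites as sums over clusters -/
theorem sum_clus {x : V → S} {om : Finset E} (A : Finset V) (F : Finset V → ℝ≥0∞) :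
    ∑ z ∈ A, ad σ x z * F (clus σ.s σ.t om z) =
      ∑ C ∈ (Finset.univ.image fun z => clus σ.s σ.t om z), XC σ x C A * F C := by
  rw [← Finset.sum_fiberwise_of_maps_to (s := A)
    (t := (Finset.univ.image fun z => clus σ.s σ.t om z)) (g := fun z => clus σ.s σ.t om z)
    (fun z _ => Finset.mem_image_of_mem _ (Finset.mem_univ z))]
  refine Finset.sum_congr rfl fun C hC => ?_
  obtain ⟨w, -, rfl⟩ := Finset.mem_image.1 hC
  unfold XC
  rw [Finset.sum_mul]
  have e : (A.filter fun z => clus σ.s σ.t om z = clus σ.s σ.t om w) =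
      (A.filter fun z => z ∈ clus σ.s σ.t om w) := by
    refine Finset.filter_congr fun z _ => ⟨fun h => ?_, fun h => clus_eq_of_mem h⟩
    rw [← h]
    exact self_mem_clus z
  rw [e]
  refine Finset.sum_congr rfl fun z hz => ?_
  rw [clus_eq_of_mem (Finset.mem_filter.1 hz).2]

/-- The integral of `∑_C X_C(A)² 1{Φ C}`. -/
noncomputable def Wd (σ : Sys V E S) (A : Finset V) (Φ : Finset V → Prop) : ℝ≥0∞ :=
  ∑ u ∈ A, Ex σ (fun x om => mf σ x om u u * (∑ v ∈ A, (mf σ x om u v : ℝ≥0∞)) *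
    ind (Φ (clus σ.s σ.t om u)))

theorem Wd_eq (A : Finset V) (Φ : Finset V → Prop) :
    Wd σ A Φ = Ex σ (fun x om => ∑ C ∈ (Finset.univ.image fun z => clus σ.s σ.t om z),
      XC σ x C A * (XC σ x C A * ind (Φ C))) := by
  unfold Wd
  rw [← Ex_sum]
  refine Ex_congr fun x om _ => ?_
  rw [← sum_clus A (fun C => XC σ x C A * ind (Φ C))]
  refine Finset.sum_congr rfl fun u _ => ?_
  rw [sum_mf, mul_assoc]
  congr 1
  rw [mf_ad, if_pos (self_mem_clus u)]

/-- The mixed sum is at most the sum of the two pure ones. -/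
theorem mixed_le (A A' : Finset V) :
    ∑ z ∈ A, Ex σ (fun x om => mf σ x om z z * ∑ y ∈ A', (mf σ x om z y : ℝ≥0∞)) ≤
      Wd σ A (fun C => ∃ y ∈ A', y ∈ C) + Wd σ A' (fun C => ∃ y ∈ A, y ∈ C) := by
  rw [← Ex_sum, Wd_eq, Wd_eq, ← Ex_add]
  refine Ex_mono fun x om _ => ?_
  have e1 : ∑ z ∈ A, (mf σ x om z z : ℝ≥0∞) * ∑ y ∈ A', (mf σ x om z y : ℝ≥0∞) =
      ∑ C ∈ (Finset.univ.image fun z => clus σ.s σ.t om z), XC σ x C A * XC σ x C A' := by
    rw [← sum_clus A (fun C => XC σ x C A')]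
    refine Finset.sum_congr rfl fun u _ => ?_
    rw [sum_mf, mf_ad, if_pos (self_mem_clus u)]
  rw [e1, ← Finset.sum_add_distrib]
  refine Finset.sum_le_sum fun C _ => ?_
  have z1 : ¬ (∃ y ∈ A', y ∈ C) → XC σ x C A' = 0 := by
    intro h
    unfold XC
    refine Finset.sum_eq_zero fun z hz => ?_
    rw [Finset.mem_filter] at hz
    exact absurd ⟨z, hz.1, hz.2⟩ h
  have z2 : ¬ (∃ y ∈ A, y ∈ C) → XC σ x C A = 0 := by
    intro h
    unfold XC
    refine Finset.sum_eq_zero fun z hz => ?_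
    rw [Finset.mem_filter] at hz
    exact absurd ⟨z, hz.1, hz.2⟩ h
  by_cases h1 : ∃ y ∈ A', y ∈ C
  · by_cases h2 : ∃ y ∈ A, y ∈ C
    · rw [ind_true h1, ind_true h2, mul_one, mul_one]
      rcases le_total (XC σ x C A) (XC σ x C A') with h | h
      · exact (mul_le_mul' h le_rfl).trans le_add_self
      · exact (mul_le_mul' le_rfl h).trans le_self_add
    · rw [z2 h2]; simp
  · rw [z1 h1]; simp

theorem sum_biUnion_le' {κ : Type*} (J : Finset κ) (b' : κ → Finset V) (f : V → ℝ≥0∞) :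
    ∑ y ∈ J.biUnion b', f y ≤ ∑ j ∈ J, ∑ y ∈ b' j, f y := by
  classical
  induction J using Finset.induction_on with
  | empty => simp
  | insert j J hj ih =>
    rw [Finset.biUnion_insert, Finset.sum_insert hj]
    calc ∑ y ∈ b' j ∪ J.biUnion b', f y
        ≤ ∑ y ∈ b' j ∪ J.biUnion b', f y + ∑ y ∈ b' j ∩ J.biUnion b', f y := le_self_add
      _ = ∑ y ∈ b' j, f y + ∑ y ∈ J.biUnion b', f y := Finset.sum_union_inter
      _ ≤ _ := by gcongr

/-- **First-moment influence bound.** -/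
theorem infl (M : Fk σ le) {ι : Type*} {I : Finset ι} {b B Fr : ι → Finset V}
    {O : ι → (V → S) → Finset E → Prop} {p μ : ℝ≥0∞} (H : Evs σ le I b B Fr O p μ)
    {i : ι} (hi : i ∈ I) {A : Finset V} (hA : A ⊆ Fr i) {κ : Type*} {J : Finset κ}
    {b' : κ → Finset V} (hcov : ∀ y ∈ B i, ∃ j ∈ J, y ∈ b' j) :
    p * μ * ∑ z ∈ A, Ex σ (fun x om => ad σ x z *
        ind (∃ y ∈ b i, y ∈ clus σ.s σ.t om z)) ≤
      ∑ j ∈ J, (Wd σ A (fun C => ∃ y ∈ b' j, y ∈ C) + Wd σ (b' j) (fun C => ∃ y ∈ A, y ∈ C)) := by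
  calc p * μ * ∑ z ∈ A, Ex σ (fun x om => ad σ x z * ind (∃ y ∈ b i, y ∈ clus σ.s σ.t om z))
      = ∑ z ∈ A, p * μ * Ex σ (fun x om => (mf σ x om z z : ℝ≥0∞) *
          ind (∃ y ∈ b i, mf σ x om z y ≠ 0)) := by
        rw [Finset.mul_sum]
        refine Finset.sum_congr rfl fun z _ => ?_
        congr 1
        refine Ex_congr fun x om hw => ?_
        rw [mf_ad, if_pos (self_mem_clus z)]
        by_cases hd : σ.d (x z) = 0
        · unfold ad
          rw [hd]; simp
        congr 1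
        refine ind_congr ⟨?_, ?_⟩
        · rintro ⟨y, hy, hc⟩
          refine ⟨y, hy, ?_⟩
          have : y ∈ (Finset.univ.filter fun w => mf σ x om z w ≠ 0) := by
            rw [supp_mf hw hd]; exact hc
          exact (Finset.mem_filter.1 this).2
        · rintro ⟨y, hy, hc⟩
          exact ⟨y, hy, mem_clus_of_mf hc⟩
    _ ≤ ∑ z ∈ A, Ex σ (fun x om => (mf σ x om z z : ℝ≥0∞) *
          ∑ y ∈ B i, (mf σ x om z y : ℝ≥0∞)) := by
        refine Finset.sum_le_sum fun z hz => ?_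
        refine fat_block M H (Γ := fun m => (m z : ℝ≥0∞)) (fun m m' h => ?_) (u := z)
          (fun m h => by simp [h]) hi (fun m hm => ⟨z, hA hz, by simpa using hm⟩)
        have h2 : m z ≤ m' z := h z
        show (m z : ℝ≥0∞) ≤ m' z
        exact_mod_cast h2
    _ ≤ ∑ z ∈ A, ∑ j ∈ J, Ex σ (fun x om => (mf σ x om z z : ℝ≥0∞) *
          ∑ y ∈ b' j, (mf σ x om z y : ℝ≥0∞)) := by
        refine Finset.sum_le_sum fun z _ => ?_
        rw [← Ex_sum]
        refine Ex_mono fun x om _ => ?_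
        rw [← Finset.mul_sum]
        refine mul_le_mul' le_rfl ?_
        calc ∑ y ∈ B i, (mf σ x om z y : ℝ≥0∞)
            ≤ ∑ y ∈ J.biUnion b', (mf σ x om z y : ℝ≥0∞) := by
              refine Finset.sum_le_sum_of_subset fun y hy => ?_
              obtain ⟨j, hj, hyj⟩ := hcov y hy
              exact Finset.mem_biUnion.2 ⟨j, hj, hyj⟩
          _ ≤ _ := sum_biUnion_le' _ _ _
    _ = ∑ j ∈ J, ∑ z ∈ A, Ex σ (fun x om => (mf σ x om z z : ℝ≥0∞) *
          ∑ y ∈ b' j, (mf σ x om z y : ℝ≥0∞)) := Finset.sum_comm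
    _ ≤ _ := Finset.sum_le_sum fun j _ => mixed_le A (b' j)

/-- `Wd` in the letters of row E6. -/
theorem Wd_qw (A : Finset V) {Φ : Finset V → Prop} :
    Wd σ A Φ = ∑' i : Finset E × (V → S) × V,
      ENNReal.ofReal (qw σ (fun v => if v ∈ A then 1 else 0) Φ i.1 i.2.1 i.2.2) := by
  have h0 : ∀ v : V, (0 : ℝ) ≤ if v ∈ A then 1 else 0 := fun v => by split_ifs <;> norm_num
  have h := tsum_q (σ := σ) h0 Φ (fun _ _ _ => 1)
  simp only [mul_one] at h
  rw [h]
  unfold Wd
  rw [← Finset.sum_subset (Finset.subset_univ A)]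
  · refine Finset.sum_congr rfl fun u hu => ?_
    refine Ex_congr fun x om hw => ?_
    by_cases hd : σ.d (x u) = 0
    · rw [Gam_zero (mf_zero hd), mf_zero hd]
      simp
    unfold Gam
    rw [supp_mf hw hd]
    have e1 : ENNReal.ofReal (if u ∈ A then (1 : ℝ) else 0) = 1 := by rw [if_pos hu]; simp
    have e2 : ∑ v, ENNReal.ofReal (if v ∈ A then (1 : ℝ) else 0) * (mf σ x om u v : ℝ≥0∞) =
        ∑ v ∈ A, (mf σ x om u v : ℝ≥0∞) := by
      rw [← Finset.sum_subset (Finset.subset_univ A)]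
      · refine Finset.sum_congr rfl fun v hv => ?_
        rw [if_pos hv]; simp
      · intro v _ hv
        rw [if_neg hv]; simp
    simp only [e1, e2, one_mul]
  · intro u _ hu
    unfold Ex
    refine ENNReal.tsum_eq_zero.2 fun x => Finset.sum_eq_zero fun om _ => ?_
    unfold Gam
    simp [hu]

end Vale.Agent.P159.TM.H576
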