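import Vale.Agent.P159.TM.H576.Fat

/-!
# P159, row B1: the size-biased cluster carries mass in every block which it visits

Letters of row E6 (634): index `ι = Finset E × (V → S) × V`,
`q om x u = wt om x * (β u |d (x u)| ∑_{v ∈ C} β v |d (x v)|) * 1{Φ C}`, `C = clus om u`.
-/

set_option linter.unusedSectionVars false
set_option linter.unusedDecidableInType false

namespace Vale.Agent.P159.TM.H576

open scoped ENNReal
open Finset H60

variable {V E S : Type*} [Fintype V] [DecidableEq V] [Fintype E] [DecidableEq E]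
variable {σ : Sys V E S} {le : S → S → Prop}

/-- `d` does not vanish on the cluster of a site where it does not vanish -/
theorem d_ne_of_conn {x : V → S} {om : Finset E} (hw : σ.wt om x ≠ 0) {u v : V}
    (hu : σ.d (x u) ≠ 0) (h : Conn σ.s σ.t om u v) : σ.d (x v) ≠ 0 := by
  rcases σ.sign_conn hw h with rfl | h1
  · exact hu
  · intro h2
    rw [h2, mul_zero] at h1
    exact lt_irrefl _ h1

theorem supp_mf {x : V → S} {om : Finset E} (hw : σ.wt om x ≠ 0) {u : V}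
    (hu : σ.d (x u) ≠ 0) :
    (Finset.univ.filter fun z => mf σ x om u z ≠ 0) = clus σ.s σ.t om u := by
  ext z
  rw [Finset.mem_filter]
  constructor
  · rintro ⟨-, h⟩
    unfold mf at h
    by_contra hz
    rw [if_neg hz] at h
    exact h rfl
  · intro hz
    refine ⟨Finset.mem_univ _, ?_⟩
    unfold mf
    rw [if_pos hz, Int.natAbs_ne_zero]
    exact d_ne_of_conn hw hu (mem_clus.1 hz)

/-- The weight of the cluster of `u` as a function of its mass. -/
noncomputable def Gam (β : V → ℝ≥0∞) (Φ : Finset V → Prop) (u : V) (m : V → ℕ) : ℝ≥0∞ :=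
  β u * m u * (∑ v, β v * m v) * ind (Φ (Finset.univ.filter fun z => m z ≠ 0))

theorem Gam_mono {β : V → ℝ≥0∞} {Φ : Finset V → Prop} (hΦ : ∀ A A', A ⊆ A' → Φ A → Φ A')
    (u : V) : Monotone (Gam β Φ u) := by
  intro m m' h
  have h1 : ∀ z, (m z : ℝ≥0∞) ≤ m' z := fun z => by exact_mod_cast h z
  unfold Gam
  refine mul_le_mul' (mul_le_mul' (mul_le_mul' le_rfl (h1 u))
    (Finset.sum_le_sum fun v _ => mul_le_mul' le_rfl (h1 v))) (ind_mono (hΦ _ _ ?_))
  intro z hz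
  rw [Finset.mem_filter] at hz ⊢
  refine ⟨hz.1, fun h0 => hz.2 ?_⟩
  have h2 : m z ≤ m' z := h z
  omega

theorem Gam_zero {β : V → ℝ≥0∞} {Φ : Finset V → Prop} {u : V} {m : V → ℕ} (h : m u = 0) :
    Gam β Φ u m = 0 := by
  unfold Gam
  rw [h]
  simp

/-- Geometry and the family of events used in row B1. `b i` is the `i`-th block, `B i` the ball
around it, `Fr i` the complement of a smaller ball. -/
structure Evs (σ : Sys V E S) (le : S → S → Prop) {ι : Type*} (I : Finset ι) (b B Fr : ι → Finset V)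
    (O : ι → (V → S) → Finset E → Prop) (p μ : ℝ≥0∞) : Prop where
  mono : ∀ i ∈ I, MonoE le (O i)
  prob : ∀ i ∈ I, p * Ex σ (fun _ _ => 1) ≤ Ex σ (fun x om => ind (O i x (plus σ x om)))
  force : ∀ i ∈ I, ∀ x T, (∀ e ∈ T, 0 < σ.d (x (σ.s e)) ∧ 0 < σ.d (x (σ.t e))) → O i x T →
    ∀ u, 0 < σ.d (x u) → (∃ v ∈ b i, v ∈ clus σ.s σ.t T u) →
      (∃ v ∈ Fr i, v ∈ clus σ.s σ.t T u) → μ ≤ ∑ z ∈ B i, (mf σ x T u z : ℝ≥0∞)

theorem mem_clus_of_mf {x : V → S} {om : Finset E} {u z : V} (h : mf σ x om u z ≠ 0) :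
    z ∈ clus σ.s σ.t om u := by
  unfold mf at h
  by_contra hz
  rw [if_neg hz] at h
  exact h rfl

/-- One block, general weight. -/
theorem fat_block (M : Fk σ le) {ι : Type*} {I : Finset ι} {b B Fr : ι → Finset V}
    {O : ι → (V → S) → Finset E → Prop} {p μ : ℝ≥0∞} (H : Evs σ le I b B Fr O p μ)
    {Γ : (V → ℕ) → ℝ≥0∞} (hΓ : Monotone Γ) {u : V} (hΓ0 : ∀ m, m u = 0 → Γ m = 0)
    {i : ι} (hi : i ∈ I) (hFr : ∀ m, Γ m ≠ 0 → ∃ v ∈ Fr i, m v ≠ 0) :
    p * μ * Ex σ (fun x om => Γ (mf σ x om u) * ind (∃ z ∈ b i, mf σ x om u z ≠ 0)) ≤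
      Ex σ (fun x om => Γ (mf σ x om u) * ∑ z ∈ B i, (mf σ x om u z : ℝ≥0∞)) := by
  have h := fat M (Γ := fun m => Γ m * ind (∃ z ∈ b i, m z ≠ 0))
    (fun m m' hm => mul_le_mul' (hΓ hm) (ind_mono (by
      rintro ⟨z, hz, h0⟩
      have h2 : m z ≤ m' z := hm z
      exact ⟨z, hz, by omega⟩))) (u := u) (fun m h0 => by rw [hΓ0 m h0, zero_mul]) (H.mono i hi) (H.prob i hi)
    (B := B i) (μ := μ) (fun x T hT hO hu hne => by
      have h1 : Γ (mf σ x T u) ≠ 0 := fun h0 => hne (by rw [h0, zero_mul])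
      have h2 : ∃ z ∈ b i, mf σ x T u z ≠ 0 := by
        by_contra h3
        apply hne
        rw [ind_false h3, mul_zero]
      obtain ⟨z, hz, hz0⟩ := h2
      obtain ⟨v, hv, hv0⟩ := hFr _ h1
      exact H.force i hi x T hT hO u hu ⟨z, hz, mem_clus_of_mf hz0⟩ ⟨v, hv, mem_clus_of_mf hv0⟩)
  refine h.trans (Ex_mono fun x om _ => ?_)
  refine mul_le_mul' ?_ le_rfl
  calc Γ (mf σ x om u) * ind (∃ z ∈ b i, mf σ x om u z ≠ 0) ≤ Γ (mf σ x om u) * 1 :=
        mul_le_mul' le_rfl (ind_le_one _)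
    _ = _ := mul_one _

/-- All blocks: the mass of the cluster is at least `p μ / k` times the number of visited
blocks, if every site is in at most `k` of the balls `B i`. -/
theorem fat_blocks (M : Fk σ le) {ι : Type*} {I : Finset ι} {b B Fr : ι → Finset V}
    {O : ι → (V → S) → Finset E → Prop} {p μ : ℝ≥0∞} (H : Evs σ le I b B Fr O p μ)
    {Γ : (V → ℕ) → ℝ≥0∞} (hΓ : Monotone Γ) {u : V} (hΓ0 : ∀ m, m u = 0 → Γ m = 0)
    (hFr : ∀ i ∈ I, ∀ m, Γ m ≠ 0 → ∃ v ∈ Fr i, m v ≠ 0) {k : ℕ}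
    (hk : ∀ z : V, {i ∈ I | z ∈ B i}.card ≤ k) :
    p * μ * Ex σ (fun x om => Γ (mf σ x om u) *
        ∑ i ∈ I, ind (∃ z ∈ b i, mf σ x om u z ≠ 0)) ≤
      k * Ex σ (fun x om => Γ (mf σ x om u) * ∑ z, (mf σ x om u z : ℝ≥0∞)) := by
  calc p * μ * Ex σ (fun x om => Γ (mf σ x om u) *
        ∑ i ∈ I, ind (∃ z ∈ b i, mf σ x om u z ≠ 0))
      = ∑ i ∈ I, p * μ * Ex σ (fun x om => Γ (mf σ x om u) *
          ind (∃ z ∈ b i, mf σ x om u z ≠ 0)) := by
        rw [← Finset.mul_sum, ← Ex_sum]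
        congr 1
        exact Ex_congr fun x om _ => Finset.mul_sum _ _ _
    _ ≤ ∑ i ∈ I, Ex σ (fun x om => Γ (mf σ x om u) * ∑ z ∈ B i, (mf σ x om u z : ℝ≥0∞)) :=
        Finset.sum_le_sum fun i hi => fat_block M H hΓ hΓ0 hi (hFr i hi)
    _ = Ex σ (fun x om => Γ (mf σ x om u) *
          ∑ i ∈ I, ∑ z ∈ B i, (mf σ x om u z : ℝ≥0∞)) := by
        rw [← Ex_sum]
        exact Ex_congr fun x om _ => (Finset.mul_sum _ _ _).symm
    _ ≤ Ex σ (fun x om => k * (Γ (mf σ x om u) * ∑ z, (mf σ x om u z : ℝ≥0∞))) := by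
        refine Ex_mono fun x om _ => ?_
        rw [← mul_assoc, mul_comm (k : ℝ≥0∞), mul_assoc]
        refine mul_le_mul' le_rfl ?_
        have e1 : ∀ i ∈ I, ∑ z ∈ B i, (mf σ x om u z : ℝ≥0∞) =
            ∑ z, if z ∈ B i then (mf σ x om u z : ℝ≥0∞) else 0 := by
          intro i _
          rw [Finset.sum_ite_mem, Finset.univ_inter]
        rw [Finset.sum_congr rfl e1, Finset.sum_comm, Finset.mul_sum]
        refine Finset.sum_le_sum fun z _ => ?_
        rw [← Finset.sum_filter, Finset.sum_const, nsmul_eq_mul]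
        exact mul_le_mul' (by exact_mod_cast hk z) le_rfl
    _ = _ := Ex_mul _ _

/-! ### the letters of row E6 -/

/-- the weight of row E6 -/
noncomputable def qw (σ : Sys V E S) (β : V → ℝ) (Φ : Finset V → Prop) (om : Finset E)
    (x : V → S) (u : V) : ℝ :=
  haveI := Classical.dec (Φ (clus σ.s σ.t om u))
  σ.wt om x * (β u * |(σ.d (x u) : ℝ)| * ∑ v ∈ clus σ.s σ.t om u, β v * |(σ.d (x v) : ℝ)|) *
    (if Φ (clus σ.s σ.t om u) then 1 else 0)

theorem qw_nonneg {β : V → ℝ} (hβ : ∀ v, 0 ≤ β v) (Φ : Finset V → Prop) (om : Finset E)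
    (x : V → S) (u : V) : 0 ≤ qw σ β Φ om x u := by
  unfold qw
  refine mul_nonneg (mul_nonneg (σ.wt_nonneg om x) (mul_nonneg (mul_nonneg (hβ u) (abs_nonneg _))
    (Finset.sum_nonneg fun v _ => mul_nonneg (hβ v) (abs_nonneg _)))) ?_
  split_ifs <;> norm_num

theorem ofReal_natAbs (n : ℤ) : ENNReal.ofReal |(n : ℝ)| = (n.natAbs : ℝ≥0∞) := by
  have h : |(n : ℝ)| = ((n.natAbs : ℕ) : ℝ) := by
    rw [Nat.cast_natAbs, Int.cast_abs]
  rw [h, ENNReal.ofReal_natCast]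

theorem qw_eq {β : V → ℝ} (hβ : ∀ v, 0 ≤ β v) (Φ : Finset V → Prop) (om : Finset E)
    (x : V → S) (u : V) : ENNReal.ofReal (qw σ β Φ om x u) =
      ENNReal.ofReal (σ.wt om x) * Gam (fun v => ENNReal.ofReal (β v)) Φ u (mf σ x om u) := by
  by_cases hw : σ.wt om x = 0
  · unfold qw
    rw [hw]
    simp
  by_cases hu : σ.d (x u) = 0
  · rw [Gam_zero (mf_zero hu)]
    unfold qw
    rw [hu]
    simp
  unfold qw Gam
  rw [supp_mf hw hu, mf_self, ENNReal.ofReal_mul (mul_nonneg (σ.wt_nonneg om x) (mul_nonneg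
    (mul_nonneg (hβ u) (abs_nonneg _)) (Finset.sum_nonneg fun v _ => mul_nonneg (hβ v)
      (abs_nonneg _)))), ENNReal.ofReal_mul (σ.wt_nonneg om x),
    ENNReal.ofReal_mul (mul_nonneg (hβ u) (abs_nonneg _)), ENNReal.ofReal_mul (hβ u),
    ofReal_natAbs, ENNReal.ofReal_sum_of_nonneg fun v _ => mul_nonneg (hβ v) (abs_nonneg _)]
  have e1 : ∑ v ∈ clus σ.s σ.t om u, ENNReal.ofReal (β v * |(σ.d (x v) : ℝ)|) =
      ∑ v, ENNReal.ofReal (β v) * (mf σ x om u v : ℝ≥0∞) := by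
    rw [← Finset.sum_filter_add_sum_filter_not Finset.univ (fun v => v ∈ clus σ.s σ.t om u)
      (fun v => ENNReal.ofReal (β v) * (mf σ x om u v : ℝ≥0∞))]
    have e2 : ∑ v with ¬ v ∈ clus σ.s σ.t om u, ENNReal.ofReal (β v) * (mf σ x om u v : ℝ≥0∞)
        = 0 := by
      refine Finset.sum_eq_zero fun v hv => ?_
      rw [Finset.mem_filter] at hv
      unfold mf
      rw [if_neg hv.2]
      simp
    rw [e2, add_zero, Finset.filter_mem_eq_inter, Finset.univ_inter]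
    refine Finset.sum_congr rfl fun v hv => ?_
    rw [ENNReal.ofReal_mul (hβ v), ofReal_natAbs]
    unfold mf
    rw [if_pos hv]
  rw [e1]
  have e3 : ENNReal.ofReal (haveI := Classical.dec (Φ (clus σ.s σ.t om u));
      if Φ (clus σ.s σ.t om u) then (1 : ℝ) else 0) = ind (Φ (clus σ.s σ.t om u)) := by
    unfold ind
    split_ifs <;> simp
  rw [e3]
  ring

/-- A sum over the index of row E6 as a sum of integrals. -/
theorem tsum_q {β : V → ℝ} (hβ : ∀ v, 0 ≤ β v) (Φ : Finset V → Prop)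
    (F : Finset E → (V → S) → V → ℝ≥0∞) :
    ∑' i : Finset E × (V → S) × V, ENNReal.ofReal (qw σ β Φ i.1 i.2.1 i.2.2) *
        F i.1 i.2.1 i.2.2 =
      ∑ u, Ex σ (fun x om => Gam (fun v => ENNReal.ofReal (β v)) Φ u (mf σ x om u) *
        F om x u) := by
  rw [ENNReal.tsum_prod']
  have e1 : ∀ om : Finset E, ∑' y : (V → S) × V, ENNReal.ofReal (qw σ β Φ om y.1 y.2) *
      F om y.1 y.2 = ∑' x : V → S, ∑ u, ENNReal.ofReal (qw σ β Φ om x u) * F om x u := by
    intro om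
    rw [ENNReal.tsum_prod']
    exact tsum_congr fun x => tsum_fintype _
  simp only [e1]
  rw [ENNReal.tsum_comm, ← Ex_sum]
  unfold Ex
  refine tsum_congr fun x => ?_
  rw [tsum_fintype]
  refine Finset.sum_congr rfl fun om _ => ?_
  rw [Finset.mul_sum]
  refine Finset.sum_congr rfl fun u _ => ?_
  rw [qw_eq hβ, mul_assoc]

end Vale.Agent.P159.TM.H576
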