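import Vale.Agent.P159.TM.H576.Blk

/-!
# P159, row B1: exponential decay from the tilt inequality and fatness

`Nv` is the number of visited blocks. `fat_real`: fatness in the letters of row E6.
`decay`: the closing step.
-/

set_option linter.unusedSectionVars false
set_option linter.unusedDecidableInType false

namespace Vale.Agent.P159.TM.H576

open scoped ENNReal
open Finset H60

variable {V E S : Type*} [Fintype V] [DecidableEq V] [Fintype E] [DecidableEq E]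
variable {σ : Sys V E S} {le : S → S → Prop}

open Classical in
/-- number of the blocks which meet `A` -/
noncomputable def Nv {ι : Type*} (I : Finset ι) (b : ι → Finset V) (A : Finset V) : ℕ :=
  {i ∈ I | ∃ z ∈ b i, z ∈ A}.card

/-- the total mass of the cluster of `u` -/
noncomputable def Xt (σ : Sys V E S) (om : Finset E) (x : V → S) (u : V) : ℝ :=
  ∑ v ∈ clus σ.s σ.t om u, |(σ.d (x v) : ℝ)|

theorem Xt_nonneg (om : Finset E) (x : V → S) (u : V) : 0 ≤ Xt σ om x u :=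
  Finset.sum_nonneg fun _ _ => abs_nonneg _

theorem Xt_eq (om : Finset E) (x : V → S) (u : V) :
    ENNReal.ofReal (Xt σ om x u) = ∑ z, (mf σ x om u z : ℝ≥0∞) := by
  unfold Xt
  rw [ENNReal.ofReal_sum_of_nonneg fun _ _ => abs_nonneg _,
    ← Finset.sum_filter_add_sum_filter_not Finset.univ (fun v => v ∈ clus σ.s σ.t om u)
      (fun v => (mf σ x om u v : ℝ≥0∞))]
  have e2 : ∑ v with ¬ v ∈ clus σ.s σ.t om u, (mf σ x om u v : ℝ≥0∞) = 0 := by
    refine Finset.sum_eq_zero fun v hv => ?_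
    rw [Finset.mem_filter] at hv
    unfold mf
    rw [if_neg hv.2]
    simp
  rw [e2, add_zero, Finset.filter_mem_eq_inter, Finset.univ_inter]
  refine Finset.sum_congr rfl fun v hv => ?_
  rw [ofReal_natAbs]
  unfold mf
  rw [if_pos hv]

theorem Nv_eq {ι : Type*} {I : Finset ι} {b : ι → Finset V} {x : V → S} {om : Finset E}
    (hw : σ.wt om x ≠ 0) {u : V} (hu : σ.d (x u) ≠ 0) :
    (Nv I b (clus σ.s σ.t om u) : ℝ≥0∞) = ∑ i ∈ I, ind (∃ z ∈ b i, mf σ x om u z ≠ 0) := by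
  classical
  unfold Nv ind
  rw [Finset.card_filter]
  push_cast
  refine Finset.sum_congr rfl fun i _ => ?_
  have h1 : (∃ z ∈ b i, z ∈ clus σ.s σ.t om u) ↔ (∃ z ∈ b i, mf σ x om u z ≠ 0) := by
    constructor
    · rintro ⟨z, hz, hc⟩
      refine ⟨z, hz, ?_⟩
      have : z ∈ (Finset.univ.filter fun z => mf σ x om u z ≠ 0) := by rw [supp_mf hw hu]; exact hc
      exact (Finset.mem_filter.1 this).2
    · rintro ⟨z, hz, hc⟩
      exact ⟨z, hz, mem_clus_of_mf hc⟩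
  by_cases h : ∃ z ∈ b i, mf σ x om u z ≠ 0
  · rw [if_pos (h1.2 h), if_pos h]
  · rw [if_neg (fun h2 => h (h1.1 h2)), if_neg h]

theorem Gam_ne {β : V → ℝ} {Φ : Finset V → Prop} {u : V} {m : V → ℕ}
    (h : Gam (fun v => ENNReal.ofReal (β v)) Φ u m ≠ 0) :
    β u ≠ 0 ∧ m u ≠ 0 ∧ Φ (Finset.univ.filter fun z => m z ≠ 0) := by
  refine ⟨fun h0 => h ?_, fun h0 => h (Gam_zero h0), ?_⟩
  · unfold Gam
    show ENNReal.ofReal (β u) * _ * _ * _ = 0
    rw [h0]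
    simp
  · by_contra h0
    apply h
    unfold Gam
    rw [ind_false h0, mul_zero]

/-- **Fatness in the letters of row E6.** -/
theorem fat_real (M : Fk σ le) {ι : Type*} {I : Finset ι} {b B Fr : ι → Finset V}
    {O : ι → (V → S) → Finset E → Prop} {p μ : ℝ} (hp : 0 ≤ p) (hμ : 0 ≤ μ)
    (H : Evs σ le I b B Fr O (ENNReal.ofReal p) (ENNReal.ofReal μ))
    {β : V → ℝ} (hβ : ∀ v, 0 ≤ β v) {Φ : Finset V → Prop} (hΦ : ∀ A A', A ⊆ A' → Φ A → Φ A')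
    (hFr : ∀ i ∈ I, ∀ A u, β u ≠ 0 → u ∈ A → Φ A → ∃ v ∈ Fr i, v ∈ A) {k : ℕ}
    (hk : ∀ z : V, {i ∈ I | z ∈ B i}.card ≤ k)
    (hX : Summable fun i : Finset E × (V → S) × V =>
      qw σ β Φ i.1 i.2.1 i.2.2 * Xt σ i.1 i.2.1 i.2.2) :
    (Summable fun i : Finset E × (V → S) × V =>
      qw σ β Φ i.1 i.2.1 i.2.2 * (p * μ * Nv I b (clus σ.s σ.t i.1 i.2.2))) ∧
    ∑' i : Finset E × (V → S) × V,
        qw σ β Φ i.1 i.2.1 i.2.2 * (p * μ * Nv I b (clus σ.s σ.t i.1 i.2.2)) ≤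
      k * ∑' i : Finset E × (V → S) × V, qw σ β Φ i.1 i.2.1 i.2.2 * Xt σ i.1 i.2.1 i.2.2 := by
  have nq : ∀ i : Finset E × (V → S) × V, 0 ≤ qw σ β Φ i.1 i.2.1 i.2.2 := fun i =>
    qw_nonneg hβ Φ _ _ _
  have nX : ∀ i : Finset E × (V → S) × V,
      0 ≤ qw σ β Φ i.1 i.2.1 i.2.2 * Xt σ i.1 i.2.1 i.2.2 := fun i =>
    mul_nonneg (nq i) (Xt_nonneg _ _ _)
  have nN : ∀ i : Finset E × (V → S) × V,
      0 ≤ qw σ β Φ i.1 i.2.1 i.2.2 * (p * μ * Nv I b (clus σ.s σ.t i.1 i.2.2)) := fun i =>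
    mul_nonneg (nq i) (mul_nonneg (mul_nonneg hp hμ) (Nat.cast_nonneg _))
  -- both sides in `ℝ≥0∞`
  have eX : ENNReal.ofReal (∑' i : Finset E × (V → S) × V,
      qw σ β Φ i.1 i.2.1 i.2.2 * Xt σ i.1 i.2.1 i.2.2) =
      ∑ u, Ex σ (fun x om => Gam (fun v => ENNReal.ofReal (β v)) Φ u (mf σ x om u) *
        ∑ z, (mf σ x om u z : ℝ≥0∞)) := by
    rw [ENNReal.ofReal_tsum_of_nonneg nX hX]
    rw [← tsum_q hβ Φ (fun om x u => ∑ z, (mf σ x om u z : ℝ≥0∞))]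
    refine tsum_congr fun i => ?_
    rw [ENNReal.ofReal_mul (nq i), Xt_eq]
  have eN : ∑' i : Finset E × (V → S) × V, ENNReal.ofReal
      (qw σ β Φ i.1 i.2.1 i.2.2 * (p * μ * Nv I b (clus σ.s σ.t i.1 i.2.2))) =
      ENNReal.ofReal p * ENNReal.ofReal μ * ∑ u, Ex σ (fun x om =>
        Gam (fun v => ENNReal.ofReal (β v)) Φ u (mf σ x om u) *
          ∑ i ∈ I, ind (∃ z ∈ b i, mf σ x om u z ≠ 0)) := by
    rw [← tsum_q hβ Φ (fun om x u => ∑ i ∈ I, ind (∃ z ∈ b i, mf σ x om u z ≠ 0)),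
      ← ENNReal.tsum_mul_left]
    refine tsum_congr fun i => ?_
    by_cases h0 : qw σ β Φ i.1 i.2.1 i.2.2 = 0
    · rw [h0]; simp
    have hw : σ.wt i.1 i.2.1 ≠ 0 := by
      intro hw
      apply h0
      unfold qw
      rw [hw]; simp
    have hu : σ.d (i.2.1 i.2.2) ≠ 0 := by
      intro hu
      apply h0
      unfold qw
      rw [hu]; simp
    rw [ENNReal.ofReal_mul (nq i), ENNReal.ofReal_mul (mul_nonneg hp hμ), ENNReal.ofReal_mul hp,
      ENNReal.ofReal_natCast, Nv_eq hw hu]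
    ring
  have key : ∑' i : Finset E × (V → S) × V, ENNReal.ofReal
      (qw σ β Φ i.1 i.2.1 i.2.2 * (p * μ * Nv I b (clus σ.s σ.t i.1 i.2.2))) ≤
      k * ENNReal.ofReal (∑' i : Finset E × (V → S) × V,
        qw σ β Φ i.1 i.2.1 i.2.2 * Xt σ i.1 i.2.1 i.2.2) := by
    rw [eN, eX, Finset.mul_sum, Finset.mul_sum]
    refine Finset.sum_le_sum fun u _ => ?_
    refine fat_blocks M H (Gam_mono hΦ u) (fun m h => Gam_zero h) (fun i hi m hm => ?_) hk
    obtain ⟨h1, h2, h3⟩ := Gam_ne hm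
    obtain ⟨v, hv, hvA⟩ := hFr i hi _ u h1 (Finset.mem_filter.2 ⟨Finset.mem_univ _, h2⟩) h3
    exact ⟨v, hv, (Finset.mem_filter.1 hvA).2⟩
  have hfin : ∑' i : Finset E × (V → S) × V, ENNReal.ofReal
      (qw σ β Φ i.1 i.2.1 i.2.2 * (p * μ * Nv I b (clus σ.s σ.t i.1 i.2.2))) ≠ ∞ :=
    ne_top_of_le_ne_top (ENNReal.mul_ne_top (ENNReal.natCast_ne_top k) ENNReal.ofReal_ne_top) key
  have hS : Summable fun i : Finset E × (V → S) × V =>
      qw σ β Φ i.1 i.2.1 i.2.2 * (p * μ * Nv I b (clus σ.s σ.t i.1 i.2.2)) := by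
    have h1 := ENNReal.summable_toReal hfin
    refine h1.congr fun i => ?_
    rw [ENNReal.toReal_ofReal (nN i)]
  refine ⟨hS, ?_⟩
  rw [← ENNReal.ofReal_tsum_of_nonneg nN hS,
    show (k : ℝ≥0∞) = ENNReal.ofReal (k : ℝ) from (ENNReal.ofReal_natCast k).symm,
    ← ENNReal.ofReal_mul (Nat.cast_nonneg k)] at key
  exact (ENNReal.ofReal_le_ofReal_iff (mul_nonneg (Nat.cast_nonneg k) (tsum_nonneg nX))).1 key

/-- **Closing step.** `he6` is the output of row E6, `hc` the output of rows E2 / E3 and the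
bound of the costs of the blocks, `hn` the number of visited blocks. -/
theorem decay (M : Fk σ le) {ι : Type*} {I : Finset ι} {b B Fr : ι → Finset V}
    {O : ι → (V → S) → Finset E → Prop} {p μ : ℝ} (hp : 0 ≤ p) (hμ : 0 ≤ μ)
    (H : Evs σ le I b B Fr O (ENNReal.ofReal p) (ENNReal.ofReal μ))
    {β : V → ℝ} (hβ : ∀ v, 0 ≤ β v) {Φ : Finset V → Prop} (hΦ : ∀ A A', A ⊆ A' → Φ A → Φ A')
    (hFr : ∀ i ∈ I, ∀ A u, β u ≠ 0 → u ∈ A → Φ A → ∃ v ∈ Fr i, v ∈ A) {k : ℕ} (hk0 : 0 < k)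
    (hk : ∀ z : V, {i ∈ I | z ∈ B i}.card ≤ k)
    {τ : ℝ} (hτ : 0 < τ) {c : Finset V → ℝ} {g0 a n B0 : ℝ}
    (hc : ∀ u A, β u ≠ 0 → u ∈ A → Φ A → g0 - a * Nv I b A ≤ c A)
    (hn : ∀ u A, β u ≠ 0 → u ∈ A → Φ A → n ≤ Nv I b A)
    (ha : a ≤ τ * (p * μ) / k)
    (hq : Summable fun i : Finset E × (V → S) × V => qw σ β Φ i.1 i.2.1 i.2.2)
    (hL : Summable fun i : Finset E × (V → S) × V => qw σ β Φ i.1 i.2.1 i.2.2 *
      ((∑ v ∈ clus σ.s σ.t i.1 i.2.2, τ * |(σ.d (i.2.1 v) : ℝ)|) + c (clus σ.s σ.t i.1 i.2.2)))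
    (he6 : ∀ m : ℝ, m * (∑' i : Finset E × (V → S) × V, qw σ β Φ i.1 i.2.1 i.2.2) ≤
        ∑' i : Finset E × (V → S) × V, qw σ β Φ i.1 i.2.1 i.2.2 *
          ((∑ v ∈ clus σ.s σ.t i.1 i.2.2, τ * |(σ.d (i.2.1 v) : ℝ)|) +
            c (clus σ.s σ.t i.1 i.2.2)) →
      (∑' i : Finset E × (V → S) × V, qw σ β Φ i.1 i.2.1 i.2.2) * Real.exp m ≤ 2 * B0) :
    (∑' i : Finset E × (V → S) × V, qw σ β Φ i.1 i.2.1 i.2.2) ≤
      2 * B0 * Real.exp (-((τ * (p * μ) / k - a) * n + g0)) := by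
  have nq : ∀ i : Finset E × (V → S) × V, 0 ≤ qw σ β Φ i.1 i.2.1 i.2.2 := fun i =>
    qw_nonneg hβ Φ _ _ _
  have hk0' : (0 : ℝ) < k := by exact_mod_cast hk0
  -- the cost is summable (finitely many clusters)
  obtain ⟨Kc, hKc⟩ : ∃ Kc : ℝ, ∀ A : Finset V, |c A| ≤ Kc := by
    obtain ⟨Kc, hKc⟩ := (Set.finite_range fun A : Finset V => |c A|).bddAbove
    exact ⟨Kc, fun A => hKc (Set.mem_range_self A)⟩
  have hqc : Summable fun i : Finset E × (V → S) × V =>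
      qw σ β Φ i.1 i.2.1 i.2.2 * c (clus σ.s σ.t i.1 i.2.2) := by
    refine Summable.of_norm_bounded (hq.mul_right Kc) fun i => ?_
    rw [Real.norm_eq_abs, abs_mul, abs_of_nonneg (nq i)]
    exact mul_le_mul_of_nonneg_left (hKc _) (nq i)
  have hqX' : Summable fun i : Finset E × (V → S) × V =>
      qw σ β Φ i.1 i.2.1 i.2.2 * (τ * Xt σ i.1 i.2.1 i.2.2) := by
    refine (hL.sub hqc).congr fun i => ?_
    unfold Xt
    rw [Finset.mul_sum]
    ring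
  have hqX : Summable fun i : Finset E × (V → S) × V =>
      qw σ β Φ i.1 i.2.1 i.2.2 * Xt σ i.1 i.2.1 i.2.2 := by
    refine (hqX'.mul_left τ⁻¹).congr fun i => ?_
    field_simp
  obtain ⟨hN, hNX⟩ := fat_real M hp hμ H hβ hΦ hFr hk hqX
  set W := ∑' i : Finset E × (V → S) × V, qw σ β Φ i.1 i.2.1 i.2.2 with hW
  have hWn : 0 ≤ W := tsum_nonneg nq
  have key : ((τ * (p * μ) / k - a) * n + g0) * W ≤
      ∑' i : Finset E × (V → S) × V, qw σ β Φ i.1 i.2.1 i.2.2 *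
          ((∑ v ∈ clus σ.s σ.t i.1 i.2.2, τ * |(σ.d (i.2.1 v) : ℝ)|) +
            c (clus σ.s σ.t i.1 i.2.2)) := by
    have e1 : ∑' i : Finset E × (V → S) × V, qw σ β Φ i.1 i.2.1 i.2.2 *
          ((∑ v ∈ clus σ.s σ.t i.1 i.2.2, τ * |(σ.d (i.2.1 v) : ℝ)|) +
            c (clus σ.s σ.t i.1 i.2.2)) =
        τ * (∑' i : Finset E × (V → S) × V, qw σ β Φ i.1 i.2.1 i.2.2 * Xt σ i.1 i.2.1 i.2.2) +
        ∑' i : Finset E × (V → S) × V,
          qw σ β Φ i.1 i.2.1 i.2.2 * c (clus σ.s σ.t i.1 i.2.2) := by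
      rw [← tsum_mul_left, ← (hqX.mul_left τ).tsum_add hqc]
      refine tsum_congr fun i => ?_
      have h1 : ∑ v ∈ clus σ.s σ.t i.1 i.2.2, τ * |(σ.d (i.2.1 v) : ℝ)| =
          τ * Xt σ i.1 i.2.1 i.2.2 := by
        unfold Xt
        rw [Finset.mul_sum]
      rw [h1]
      ring
    have e2 : (τ / k) * ∑' i : Finset E × (V → S) × V,
        qw σ β Φ i.1 i.2.1 i.2.2 * (p * μ * Nv I b (clus σ.s σ.t i.1 i.2.2)) ≤
        τ * ∑' i : Finset E × (V → S) × V,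
          qw σ β Φ i.1 i.2.1 i.2.2 * Xt σ i.1 i.2.1 i.2.2 := by
      calc (τ / k) * ∑' i : Finset E × (V → S) × V,
            qw σ β Φ i.1 i.2.1 i.2.2 * (p * μ * Nv I b (clus σ.s σ.t i.1 i.2.2))
          ≤ (τ / k) * (k * ∑' i : Finset E × (V → S) × V,
              qw σ β Φ i.1 i.2.1 i.2.2 * Xt σ i.1 i.2.1 i.2.2) :=
            mul_le_mul_of_nonneg_left hNX (by positivity)
        _ = _ := by field_simp
    have e3 : ((τ * (p * μ) / k - a) * n + g0) * W ≤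
        (τ / k) * (∑' i : Finset E × (V → S) × V,
          qw σ β Φ i.1 i.2.1 i.2.2 * (p * μ * Nv I b (clus σ.s σ.t i.1 i.2.2))) +
        ∑' i : Finset E × (V → S) × V,
          qw σ β Φ i.1 i.2.1 i.2.2 * c (clus σ.s σ.t i.1 i.2.2) := by
      rw [hW, ← tsum_mul_left, ← tsum_mul_left, ← (hN.mul_left (τ / k)).tsum_add hqc]
      refine (hq.mul_left _).tsum_le_tsum (fun i => ?_) ((hN.mul_left _).add hqc)
      by_cases h0 : qw σ β Φ i.1 i.2.1 i.2.2 = 0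
      · rw [h0]; simp
      have hβu : β i.2.2 ≠ 0 := by
        intro hβ0
        apply h0
        unfold qw
        rw [hβ0]; simp
      have hΦA : Φ (clus σ.s σ.t i.1 i.2.2) := by
        by_contra hΦ0
        apply h0
        unfold qw
        rw [if_neg hΦ0, mul_zero]
      have h1 := hc i.2.2 _ hβu (self_mem_clus _) hΦA
      have h2 := hn i.2.2 _ hβu (self_mem_clus _) hΦA
      set Nn : ℝ := ((Nv I b (clus σ.s σ.t i.1 i.2.2) : ℕ) : ℝ) with hNn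
      have h3 : (τ * (p * μ) / k - a) * n + g0 ≤
          τ / k * (p * μ * Nn) + c (clus σ.s σ.t i.1 i.2.2) := by
        have h4 : (τ * (p * μ) / k - a) * n ≤ (τ * (p * μ) / k - a) * Nn :=
          mul_le_mul_of_nonneg_left h2 (by linarith)
        have h5 : (τ * (p * μ) / k - a) * Nn + a * Nn = τ / k * (p * μ * Nn) := by ring
        linarith
      calc ((τ * (p * μ) / k - a) * n + g0) * qw σ β Φ i.1 i.2.1 i.2.2
          = qw σ β Φ i.1 i.2.1 i.2.2 * ((τ * (p * μ) / k - a) * n + g0) := mul_comm _ _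
        _ ≤ qw σ β Φ i.1 i.2.1 i.2.2 *
            (τ / k * (p * μ * Nn) + c (clus σ.s σ.t i.1 i.2.2)) :=
            mul_le_mul_of_nonneg_left h3 (nq i)
        _ = _ := by ring
    rw [e1]
    linarith
  have h1 := he6 _ key
  rw [Real.exp_neg]
  rw [← div_eq_mul_inv, le_div_iff₀ (Real.exp_pos _)]
  exact h1

end Vale.Agent.P159.TM.H576
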