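import Vale.Agent.P159.TM.H857.H2B1
import Vale.Agent.P159.TM.H576.Blk
import Vale.Agent.P159.TM.H352.GFat

/-!
P159, T1, row B1 (helper576): fatness of the clusters of the two copies from the circuits
everywhere, in the letters of `H352.FATH`.
-/

open scoped ENNReal NNReal BigOperators
open Finset

set_option linter.unusedSectionVars false
set_option linter.unusedDecidableInType false

namespace Vale.Agent.P159.TM.H576

open Vale.Agent.P159.TM.H60 Vale.Agent.P159.TM.H459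

section
variable {N : ℕ} [NeZero N]

/-- a ball of radius `k r` is covered by `(2k+1)^2` balls of radius `r` -/
theorem coverk (x0 : ZMod N × ZMod N) (r k : ℕ) : ∃ I : Finset (ZMod N × ZMod N),
    I.card ≤ (2 * k + 1) ^ 2 ∧ ∀ y ∈ ball x0 (k * r), ∃ c ∈ I, y ∈ ball c r := by
  classical
  rcases Nat.eq_zero_or_pos r with rfl | hr
  · refine ⟨{x0}, ?_, fun y hy => ⟨x0, by simp, by simpa using hy⟩⟩
    rw [Finset.card_singleton]
    exact Nat.one_le_pow _ _ (by omega)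
  set φ : ℤ × ℤ → ZMod N × ZMod N := fun p =>
    x0 + (((p.1 * r : ℤ) : ZMod N), ((p.2 * r : ℤ) : ZMod N)) with hφ
  refine ⟨(Finset.Icc (-(k : ℤ)) k ×ˢ Finset.Icc (-(k : ℤ)) k).image φ, ?_, ?_⟩
  · refine Finset.card_image_le.trans ?_
    rw [Finset.card_product, Int.card_Icc]
    have h5 : ((k : ℤ) + 1 - -(k : ℤ)).toNat = 2 * k + 1 := by omega
    rw [h5, sq]
  · intro y hy
    rw [mem_ball] at hy
    unfold sd sn at hy
    set a1 : ℤ := (y - x0).1.valMinAbs with ha1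
    set a2 : ℤ := (y - x0).2.valMinAbs with ha2
    have hy1 : a1.natAbs ≤ k * r := (le_max_left _ _).trans hy
    have hy2 : a2.natAbs ≤ k * r := (le_max_right _ _).trans hy
    have hrz : (0 : ℤ) < r := by exact_mod_cast hr
    have key : ∀ a : ℤ, a.natAbs ≤ k * r → -(k : ℤ) ≤ a / r ∧ a / r ≤ k ∧
        (a - a / r * r).natAbs ≤ r := by
      intro a ha
      have h0 : |a| ≤ (k : ℤ) * r := by
        rw [Int.abs_eq_natAbs]
        exact_mod_cast ha
      rw [abs_le] at h0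
      have h1 := Int.emod_add_mul_ediv a r
      have h2 := Int.emod_nonneg a hrz.ne'
      have h3 := Int.emod_lt_of_pos a hrz
      refine ⟨?_, ?_, ?_⟩
      · rw [Int.le_ediv_iff_mul_le hrz]
        linarith [h0.1]
      · have h5 : a / r < k + 1 := by
          rw [Int.ediv_lt_iff_lt_mul hrz]
          nlinarith [h0.2]
        omega
      · have h4 : a - a / r * r = a % r := by
          rw [mul_comm]
          linarith
        rw [h4]
        omega
    obtain ⟨k1, k2, k3⟩ := key a1 hy1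
    obtain ⟨k4, k5, k6⟩ := key a2 hy2
    refine ⟨φ (a1 / r, a2 / r), Finset.mem_image.2 ⟨_, ?_, rfl⟩, ?_⟩
    · rw [Finset.mem_product, Finset.mem_Icc, Finset.mem_Icc]
      exact ⟨⟨k1, k2⟩, ⟨k4, k5⟩⟩
    · rw [mem_ball]
      unfold sd sn
      have e1 : (y - φ (a1 / r, a2 / r)).1 = ((a1 - a1 / r * r : ℤ) : ZMod N) := by
        have : (y - x0).1 = ((a1 : ℤ) : ZMod N) := (ZMod.coe_valMinAbs _).symm
        rw [Prod.fst_sub] at this
        simp only [hφ, Prod.fst_sub, Prod.fst_add]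
        rw [← sub_sub, this]
        push_cast
        ring
      have e2 : (y - φ (a1 / r, a2 / r)).2 = ((a2 - a2 / r * r : ℤ) : ZMod N) := by
        have : (y - x0).2 = ((a2 : ℤ) : ZMod N) := (ZMod.coe_valMinAbs _).symm
        rw [Prod.snd_sub] at this
        simp only [hφ, Prod.snd_sub, Prod.snd_add]
        rw [← sub_sub, this]
        push_cast
        ring
      exact max_le ((vma_le_of_eq _ _ e1).trans k3) ((vma_le_of_eq _ _ e2).trans k6)

variable {n : ℕ} [NeZero n]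

/-- a block is covered by `(4A+1)^2` balls of radius `l / A`, each of which meets the block -/
theorem cover_blk {l A : ℕ} (hA : 8 ≤ A) (hAl : A ≤ l) (hN : N = n * l)
    (β : ZMod n × ZMod n) : ∃ I : Finset (ZMod N × ZMod N), I.card ≤ (4 * A + 1) ^ 2 ∧
      (∀ z, bk n l z = β → ∃ c ∈ I, z ∈ ball c (l / A)) ∧
      ∀ c ∈ I, ∀ w ∈ ball c (4 * (l / A)), sd β (bk n l w) ≤ 1 := by
  classical
  have hl : 0 < l := by omega
  have hr8 : 8 * (l / A) ≤ l :=
    (Nat.mul_le_mul_right _ hA).trans (by rw [mul_comm]; exact Nat.div_mul_le_self l A)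
  have hr1 : 1 ≤ l / A := (Nat.one_le_div_iff (by omega)).2 hAl
  by_cases hne : ∃ y0 : ZMod N × ZMod N, bk n l y0 = β
  · obtain ⟨y0, hy0⟩ := hne
    obtain ⟨I, hI, hc⟩ := coverk y0 (l / A) (2 * A)
    refine ⟨I.filter fun c => ∃ z, bk n l z = β ∧ z ∈ ball c (l / A),
      (Finset.card_le_card (Finset.filter_subset _ _)).trans ?_, ?_, ?_⟩
    · refine hI.trans (le_of_eq ?_)
      ring
    · intro z hz
      have h1 : sd y0 z ≤ l - 1 := sd_of_bk_eq (n := n) hl hN (hy0.trans hz.symm)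
      have h2 : l ≤ 2 * A * (l / A) := by
        have h3 := Nat.div_add_mod l A
        have h4 := Nat.mod_lt l (show 0 < A by omega)
        have h5 : A * 1 ≤ A * (l / A) := Nat.mul_le_mul_left A hr1
        have h6 : 2 * A * (l / A) = A * (l / A) + A * (l / A) := by ring
        omega
      obtain ⟨c, hcI, hzc⟩ := hc z (mem_ball.2 (by omega))
      exact ⟨c, Finset.mem_filter.2 ⟨hcI, z, hz, hzc⟩, hzc⟩
    · intro c hcI w hw
      obtain ⟨_, z, hz, hzc⟩ := Finset.mem_filter.1 hcI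
      rw [mem_ball] at hw hzc
      have h1 := sd_tri z c w
      have h2 := sd_symm z c
      have h3 := bk_le (n := n) hl hN z w
      rw [hz] at h3
      by_contra h4
      have h5 : l * 2 ≤ l * sd β (bk n l w) := Nat.mul_le_mul_left l (by omega)
      omega
  · refine ⟨∅, by simp, fun z hz => absurd ⟨z, hz⟩ hne, fun c hc => ?_⟩
    simp at hc

/-- **row B1: fatness of the gas of the two copies in the background `f`** -/
theorem fath_two {b : ℝ} (hb : 0 < b) {ξ A : ℕ} (hA : 8 ≤ A) (hAξ : A ≤ ξ) (hN : N = n * ξ)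
    {c₀ δ : ℝ} (hc₀ : 0 < c₀) (hδ : 0 < δ) (hδξ : 1 ≤ δ * (ξ : ℝ) ^ 2) {f : Spec.V N → ℝ}
    (hO : ∀ x0, c₀ ≤ Spec.PO N b ξ hb.le ⌊δ * (ξ : ℝ) ^ 2⌋₊ (ξ / A) f x0) {K : ℝ≥0}
    (hK : 2 * (4 * (A : ℝ) + 1) ^ 2 ≤ c₀ * δ * K) {D : ℕ} (hD : 2 ≤ D) :
    H352.FATH (Spec.σ2 N b ξ hb.le f) n ξ (((ξ : ℝ≥0) ^ 2)⁻¹) K D := by
  classical
  intro β u Γ hΓ hΓ0 hΓv hfin
  set σ := Spec.σ2 N b ξ hb.le f with hσ
  set μ := ⌊δ * (ξ : ℝ) ^ 2⌋₊ with hμ
  set r := ξ / A with hr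
  have hξ : 0 < ξ := by omega
  have hξR : (0 : ℝ) < ξ := by exact_mod_cast hξ
  have M := H857.fk_T (N := N) hb hξ f
  have H := H857.evs_T (N := N) hb hξ hO
  obtain ⟨I, hI, hcov, hnear⟩ := cover_blk hA hAξ hN β
  -- one centre
  have h1 : ∀ c ∈ I, ENNReal.ofReal c₀ * μ *
      Ex σ (fun x om => Γ (mf σ x om u) * ind (∃ z ∈ ball c r, mf σ x om u z ≠ 0)) ≤
      Ex σ (fun x om => Γ (mf σ x om u) *
        ∑ z ∈ univ.filter (fun z => sd β (bk n ξ z) ≤ D), (mf σ x om u z : ℝ≥0∞)) := by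
    intro c hc
    have h2 := fat_block M H hΓ (u := u) hΓ0 (i := c) (Finset.mem_univ c) (fun m hm => by
      obtain ⟨_, z, hz, hzm⟩ := hΓv m hm
      refine ⟨z, ?_, hzm⟩
      rw [Finset.mem_compl]
      intro hzb
      have h3 := hnear c hc z (ball_mono (by omega : 2 * (ξ / A) ≤ 4 * (ξ / A)) hzb)
      omega)
    refine h2.trans (Ex_mono fun x om _ => ?_)
    refine mul_le_mul' le_rfl (Finset.sum_le_sum_of_subset fun z hz => ?_)
    rw [Finset.mem_filter]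
    refine ⟨Finset.mem_univ _, ?_⟩
    have h3 := hnear c hc z hz
    omega
  -- all centres
  have h2 : Ex σ (fun x om => Γ (mf σ x om u)) ≤ ∑ c ∈ I,
      Ex σ (fun x om => Γ (mf σ x om u) * ind (∃ z ∈ ball c r, mf σ x om u z ≠ 0)) := by
    rw [← Ex_sum]
    refine Ex_mono fun x om _ => ?_
    rw [← Finset.mul_sum]
    by_cases h0 : Γ (mf σ x om u) = 0
    · rw [h0]; simp
    obtain ⟨⟨z, hz, hzm⟩, _⟩ := hΓv _ h0
    obtain ⟨c, hcI, hzc⟩ := hcov z hz
    calc Γ (mf σ x om u) = Γ (mf σ x om u) * 1 := (mul_one _).symm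
      _ ≤ _ := by
        refine mul_le_mul' le_rfl ?_
        have h3 : (1 : ℝ≥0∞) ≤ ind (∃ z ∈ ball c r, mf σ x om u z ≠ 0) :=
          (ind_true ⟨z, hzc, hzm⟩).ge
        exact h3.trans (Finset.single_le_sum
          (f := fun c => ind (∃ z ∈ ball c r, mf σ x om u z ≠ 0)) (fun _ _ => bot_le) hcI)
  set T := Ex σ (fun x om => Γ (mf σ x om u) *
    ∑ z ∈ univ.filter (fun z => sd β (bk n ξ z) ≤ D), (mf σ x om u z : ℝ≥0∞)) with hT
  have h3 : ENNReal.ofReal c₀ * μ * Ex σ (fun x om => Γ (mf σ x om u)) ≤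
      ((4 * A + 1) ^ 2 : ℕ) * T := by
    calc ENNReal.ofReal c₀ * μ * Ex σ (fun x om => Γ (mf σ x om u))
        ≤ ENNReal.ofReal c₀ * μ * ∑ c ∈ I, Ex σ (fun x om => Γ (mf σ x om u) *
            ind (∃ z ∈ ball c r, mf σ x om u z ≠ 0)) := mul_le_mul' le_rfl h2
      _ = ∑ c ∈ I, ENNReal.ofReal c₀ * μ * Ex σ (fun x om => Γ (mf σ x om u) *
            ind (∃ z ∈ ball c r, mf σ x om u z ≠ 0)) := by rw [Finset.mul_sum]
      _ ≤ ∑ c ∈ I, T := Finset.sum_le_sum h1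
      _ = (I.card : ℝ≥0∞) * T := by rw [Finset.sum_const, nsmul_eq_mul]
      _ ≤ _ := by
        refine mul_le_mul' ?_ le_rfl
        exact_mod_cast hI
  -- constants
  have hμ2 : δ * (ξ : ℝ) ^ 2 / 2 ≤ μ := by
    have h4 := Nat.lt_floor_add_one (δ * (ξ : ℝ) ^ 2)
    rw [← hμ] at h4
    have h5 : (1 : ℝ) ≤ μ := by
      have h6 : 1 ≤ μ := by
        rw [hμ]
        refine Nat.le_floor ?_
        rw [Nat.cast_one]
        exact hδξ
      exact_mod_cast h6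
    linarith
  have hKe : (((4 * A + 1) ^ 2 : ℕ) : ℝ≥0∞) ≤
      ENNReal.ofReal c₀ * μ * ((K : ℝ≥0∞) * ((((ξ : ℝ≥0) ^ 2)⁻¹ : ℝ≥0) : ℝ≥0∞)) := by
    have e1 : ENNReal.ofReal c₀ * μ * ((K : ℝ≥0∞) * ((((ξ : ℝ≥0) ^ 2)⁻¹ : ℝ≥0) : ℝ≥0∞)) =
        ENNReal.ofReal (c₀ * μ * (K * ((ξ : ℝ) ^ 2)⁻¹)) := by
      rw [ENNReal.ofReal_mul (by positivity), ENNReal.ofReal_mul hc₀.le,
        ENNReal.ofReal_natCast, ENNReal.ofReal_mul (by positivity), ENNReal.ofReal_coe_nnreal]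
      congr 2
      rw [← ENNReal.ofReal_coe_nnreal]
      push_cast
      rfl
    rw [e1, ← ENNReal.ofReal_natCast]
    refine ENNReal.ofReal_le_ofReal ?_
    push_cast
    have h5 : c₀ * (δ * (ξ : ℝ) ^ 2 / 2) * (K * ((ξ : ℝ) ^ 2)⁻¹) ≤
        c₀ * μ * (K * ((ξ : ℝ) ^ 2)⁻¹) := by
      have : (0 : ℝ) ≤ K * ((ξ : ℝ) ^ 2)⁻¹ := by positivity
      exact mul_le_mul_of_nonneg_right (mul_le_mul_of_nonneg_left hμ2 hc₀.le) this
    refine le_trans ?_ h5
    have h6 : c₀ * (δ * (ξ : ℝ) ^ 2 / 2) * (K * ((ξ : ℝ) ^ 2)⁻¹) = c₀ * δ * K / 2 := by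
      field_simp
    rw [h6]
    linarith
  have hp0 : ENNReal.ofReal c₀ * (μ : ℝ≥0∞) ≠ 0 := by
    refine mul_ne_zero ?_ ?_
    · rw [Ne, ENNReal.ofReal_eq_zero, not_le]; exact hc₀
    · have : 0 < (μ : ℝ) := lt_of_lt_of_le (by positivity) hμ2
      have h7 : μ ≠ 0 := by
        intro h0
        rw [h0] at this
        simp at this
      exact_mod_cast h7
  have hpt : ENNReal.ofReal c₀ * (μ : ℝ≥0∞) ≠ ∞ :=
    ENNReal.mul_ne_top ENNReal.ofReal_ne_top (ENNReal.natCast_ne_top _)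
  have h4 : ENNReal.ofReal c₀ * μ * Ex σ (fun x om => Γ (mf σ x om u)) ≤
      ENNReal.ofReal c₀ * μ * (((K : ℝ≥0∞) * ((((ξ : ℝ≥0) ^ 2)⁻¹ : ℝ≥0) : ℝ≥0∞)) * T) := by
    refine h3.trans ?_
    rw [← mul_assoc]
    exact mul_le_mul' hKe le_rfl
  have h5 := (ENNReal.mul_le_mul_iff_right hp0 hpt).1 h4
  refine h5.trans (le_of_eq ?_)
  rw [mul_assoc, hT, ← Ex_mul]
  congr 2
  funext x om
  ring

end

end Vale.Agent.P159.TM.H576
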